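import Vale.Agent.P155.B1b.CVdefs

/-!
# P155, asymptotics of the plane covariances of increments
-/

namespace Vale.Agent.P155.B1b

open Finset

/-- weight -/
noncomputable def sz (k q : ℤ) : ℝ := 1 + |(k : ℝ)| + |(q : ℝ)|

theorem one_le_sz (k q : ℤ) : 1 ≤ sz k q := by
  unfold sz
  have := abs_nonneg (k : ℝ)
  have := abs_nonneg (q : ℝ)
  linarith

theorem sz_pos (k q : ℤ) : 0 < sz k q := lt_of_lt_of_le one_pos (one_le_sz k q)

theorem sz_comm (k q : ℤ) : sz k q = sz q k := by unfold sz; ring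

/-- `x / (π (x² + y²))` -/
noncomputable def g (x y : ℝ) : ℝ := x / (Real.pi * (x ^ 2 + y ^ 2))

theorem nn_ge (x y : ℝ) : (|x| + |y|) ^ 2 / 2 ≤ x ^ 2 + y ^ 2 := by
  have h1 := sq_abs x
  have h2 := sq_abs y
  nlinarith [sq_nonneg (|x| - |y|)]

theorem abs_g_le_one (k q : ℤ) : |g k q| ≤ 2 / sz k q := by
  unfold g
  by_cases h : (k : ℝ) ^ 2 + (q : ℝ) ^ 2 = 0
  · rw [h]
    simp only [mul_zero, div_zero, abs_zero]
    exact div_nonneg (by norm_num) (sz_pos k q).le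
  have hn : 0 < (k : ℝ) ^ 2 + (q : ℝ) ^ 2 := lt_of_le_of_ne (by positivity) (Ne.symm h)
  have h1 : (1 : ℤ) ≤ |k| + |q| := by
    by_contra hc
    have hk : k = 0 := by
      have := abs_nonneg q
      have := abs_nonneg k
      have : |k| = 0 := by omega
      exact abs_eq_zero.1 this
    have hq : q = 0 := by
      have := abs_nonneg q
      have := abs_nonneg k
      have : |q| = 0 := by omega
      exact abs_eq_zero.1 this
    subst hk; subst hq
    simp at hn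
  have h1R : (1 : ℝ) ≤ |(k : ℝ)| + |(q : ℝ)| := by exact_mod_cast h1
  have h2 := nn_ge k q
  have hpi := Real.pi_gt_three
  rw [abs_div, abs_of_pos (by positivity : 0 < Real.pi * ((k : ℝ) ^ 2 + (q : ℝ) ^ 2)),
    div_le_div_iff₀ (by positivity) (sz_pos k q)]
  unfold sz
  set s := |(k : ℝ)| + |(q : ℝ)| with hs
  have hk : |(k : ℝ)| ≤ s := by
    have := abs_nonneg (q : ℝ)
    linarith
  have e : (1 + |(k : ℝ)| + |(q : ℝ)|) = 1 + s := by rw [hs]; ring
  rw [e]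
  have h3 : |(k : ℝ)| * (1 + s) ≤ s * (2 * s) := by
    apply mul_le_mul hk (by linarith) (by linarith) (by linarith)
  have h4 : s ^ 2 ≤ 2 * ((k : ℝ) ^ 2 + (q : ℝ) ^ 2) := by linarith
  nlinarith

theorem abs_g_le (k q : ℤ) : |g k q| ≤ 1 := by
  by_cases h : 2 ≤ sz k q
  · refine (abs_g_le_one k q).trans ?_
    rw [div_le_one (sz_pos k q)]
    exact h
  · push Not at h
    have h1 : |(k : ℝ)| + |(q : ℝ)| < 1 := by unfold sz at h; linarith
    have h2 : |k| + |q| < 1 := by exact_mod_cast h1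
    have hk : k = 0 := by
      have := abs_nonneg q
      have := abs_nonneg k
      have : |k| = 0 := by omega
      exact abs_eq_zero.1 this
    subst hk
    unfold g
    simp

theorem num_le {x y α β : ℝ} (haR : |α| ≤ 1) (hbR : |β| ≤ 1) (hxn : |x| ≤ x ^ 2 + y ^ 2) :
    |α * (x ^ 2 + y ^ 2) - x * (2 * x * α + 2 * y * β + α ^ 2 + β ^ 2)| ≤ 6 * (x ^ 2 + y ^ 2) := by
  have hn0 : 0 ≤ x ^ 2 + y ^ 2 := by positivity
  have t1 : |α * (x ^ 2 + y ^ 2)| ≤ x ^ 2 + y ^ 2 := by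
    rw [abs_mul, abs_of_nonneg hn0]
    exact mul_le_of_le_one_left hn0 haR
  have hx2 : |x| * |x| ≤ x ^ 2 + y ^ 2 := by rw [abs_mul_abs_self]; nlinarith [sq_nonneg y]
  have hxy : 2 * (|x| * |y|) ≤ x ^ 2 + y ^ 2 := by
    rw [← sq_abs x, ← sq_abs y]
    nlinarith [sq_nonneg (|x| - |y|)]
  have a1 : |2 * x * α| ≤ 2 * |x| := by
    rw [abs_mul, abs_mul, abs_two]
    exact mul_le_of_le_one_right (by positivity) haR
  have a2 : |2 * y * β| ≤ 2 * |y| := by
    rw [abs_mul, abs_mul, abs_two]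
    exact mul_le_of_le_one_right (by positivity) hbR
  have a3 : |α ^ 2| ≤ 1 := by
    rw [abs_pow]
    exact pow_le_one₀ (abs_nonneg _) haR
  have a4 : |β ^ 2| ≤ 1 := by
    rw [abs_pow]
    exact pow_le_one₀ (abs_nonneg _) hbR
  have a5 : |2 * x * α + 2 * y * β + α ^ 2 + β ^ 2| ≤ 2 * |x| + 2 * |y| + 1 + 1 :=
    (abs_add_le _ _).trans (add_le_add ((abs_add_le _ _).trans
      (add_le_add ((abs_add_le _ _).trans (add_le_add a1 a2)) a3)) a4)
  have t2 : |x * (2 * x * α + 2 * y * β + α ^ 2 + β ^ 2)| ≤ 5 * (x ^ 2 + y ^ 2) := by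
    rw [abs_mul]
    calc |x| * |2 * x * α + 2 * y * β + α ^ 2 + β ^ 2|
        ≤ |x| * (2 * |x| + 2 * |y| + 1 + 1) := mul_le_mul_of_nonneg_left a5 (abs_nonneg x)
      _ = 2 * (|x| * |x|) + 2 * (|x| * |y|) + 2 * |x| := by ring
      _ ≤ 5 * (x ^ 2 + y ^ 2) := by linarith
  calc _ ≤ |α * (x ^ 2 + y ^ 2)| + |x * (2 * x * α + 2 * y * β + α ^ 2 + β ^ 2)| := abs_sub _ _
    _ ≤ 6 * (x ^ 2 + y ^ 2) := by linarith

theorem abs_ge_sub (x α : ℝ) : |x| - |α| ≤ |x + α| := by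
  have := abs_sub_abs_le_abs_sub x (-α)
  rw [abs_neg, sub_neg_eq_add] at this
  exact this

/-- Lipschitz bound -/
theorem g_lip (k q a b : ℤ) (ha : |a| ≤ 1) (hb : |b| ≤ 1) :
    |g ((k + a : ℤ) : ℝ) ((q + b : ℤ) : ℝ) - g k q| ≤ 64 / sz k q ^ 2 := by
  have hszp := sz_pos k q
  by_cases hs : sz k q ≤ 3
  · have h1 := abs_g_le k q
    have h2 := abs_g_le (k + a) (q + b)
    have h3 : (sz k q) ^ 2 ≤ 9 := by
      have := one_le_sz k q
      nlinarith
    rw [le_div_iff₀ (by positivity)]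
    have h4 : |g ((k + a : ℤ) : ℝ) ((q + b : ℤ) : ℝ) - g k q| ≤ 2 :=
      (abs_sub _ _).trans (by linarith)
    have h5 := abs_nonneg (g ((k + a : ℤ) : ℝ) ((q + b : ℤ) : ℝ) - g k q)
    nlinarith
  push Not at hs
  set x : ℝ := (k : ℝ) with hx
  set y : ℝ := (q : ℝ) with hy
  set α : ℝ := (a : ℝ) with hα
  set β : ℝ := (b : ℝ) with hβ
  have haR : |α| ≤ 1 := by rw [hα]; exact_mod_cast ha
  have hbR : |β| ≤ 1 := by rw [hβ]; exact_mod_cast hb
  set s := |x| + |y| with hsdef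
  have hs2 : 2 < s := by
    unfold sz at hs; linarith
  have hsz : sz k q = 1 + s := by unfold sz; rw [hsdef]; ring
  have e1 : ((k + a : ℤ) : ℝ) = x + α := by push_cast; rfl
  have e2 : ((q + b : ℤ) : ℝ) = y + β := by push_cast; rfl
  rw [e1, e2, hsz]
  set n := x ^ 2 + y ^ 2 with hn
  set n' := (x + α) ^ 2 + (y + β) ^ 2 with hn'
  have hnge : s ^ 2 / 2 ≤ n := nn_ge x y
  have hnpos : 0 < n := by nlinarith
  have hxn : |x| ≤ n := by
    have : |x| ≤ s := by have := abs_nonneg y; linarith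
    nlinarith
  -- s is an integer > 2
  have hs3 : 3 ≤ s := by
    have h1 : (2 : ℝ) < ((|k| + |q| : ℤ) : ℝ) := by push_cast; exact hs2
    have h2 : (2 : ℤ) < |k| + |q| := by exact_mod_cast h1
    have h3 : (3 : ℤ) ≤ |k| + |q| := h2
    have h4 : (3 : ℝ) ≤ ((|k| + |q| : ℤ) : ℝ) := by exact_mod_cast h3
    push_cast at h4
    exact h4
  have hs' : s - 2 ≤ |x + α| + |y + β| := by
    have h1 := abs_ge_sub x α
    have h2 := abs_ge_sub y β
    linarith
  have hn'ge : (1 + s) ^ 2 / 32 ≤ n' := by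
    have h1 := nn_ge (x + α) (y + β)
    have h2 : (1 + s) / 4 ≤ |x + α| + |y + β| := by linarith
    have h3 : ((1 + s) / 4) ^ 2 ≤ (|x + α| + |y + β|) ^ 2 := by
      apply pow_le_pow_left₀ (by linarith) h2
    have h4 : (1 + s) ^ 2 / 32 = ((1 + s) / 4) ^ 2 / 2 := by ring
    rw [h4]
    linarith
  have hn'pos : 0 < n' := lt_of_lt_of_le (by positivity) hn'ge
  have hpi := Real.pi_gt_three
  have hgd : g (x + α) (y + β) - g x y =
      (α * n - x * (2 * x * α + 2 * y * β + α ^ 2 + β ^ 2)) / (Real.pi * (n * n')) := by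
    unfold g
    rw [← hn, ← hn']
    have h1 : n' = n + (2 * x * α + 2 * y * β + α ^ 2 + β ^ 2) := by rw [hn, hn']; ring
    have h2 : (2 * x * α + 2 * y * β + α ^ 2 + β ^ 2) = n' - n := by rw [h1]; ring
    rw [h2]
    have := hnpos.ne'
    have := hn'pos.ne'
    field_simp
    ring
  rw [hgd, abs_div, abs_of_pos (by positivity : 0 < Real.pi * (n * n'))]
  have hnum : |α * n - x * (2 * x * α + 2 * y * β + α ^ 2 + β ^ 2)| ≤ 6 * n :=
    num_le haR hbR hxn
  calc |α * n - x * (2 * x * α + 2 * y * β + α ^ 2 + β ^ 2)| / (Real.pi * (n * n'))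
      ≤ 6 * n / (Real.pi * (n * n')) := by gcongr
    _ ≤ 6 * n / (3 * (n * n')) := by gcongr
    _ = 2 / n' := by field_simp; norm_num
    _ ≤ 2 / ((1 + s) ^ 2 / 32) := by gcongr
    _ = 64 / (1 + s) ^ 2 := by field_simp; norm_num

end Vale.Agent.P155.B1b
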