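import Vale.Agent.P155.B1b.Asy

/-!
# P155, asymptotics of the plane covariances of increments, II
-/

namespace Vale.Agent.P155.B1b

open Finset

theorem nsq_ge {k q : ℤ} (h : Odd (k + q)) : sz k q ^ 2 / 8 ≤ (k : ℝ) ^ 2 + (q : ℝ) ^ 2 := by
  have h1 : (1 : ℤ) ≤ |k| + |q| := by
    by_contra hc
    have hk : k = 0 := by
      have := abs_nonneg q
      have := abs_nonneg k
      have : |k| = 0 := by omega
      exact abs_eq_zero.1 this
    have hq : q = 0 := by
      have := abs_nonneg q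
      have := abs_nonneg k
      have : |q| = 0 := by omega
      exact abs_eq_zero.1 this
    subst hk; subst hq
    simp at h
  have h1R : (1 : ℝ) ≤ |(k : ℝ)| + |(q : ℝ)| := by exact_mod_cast h1
  have h2 := nn_ge k q
  have h3 : sz k q ≤ 2 * (|(k : ℝ)| + |(q : ℝ)|) := by unfold sz; linarith
  have h4 : sz k q ^ 2 ≤ (2 * (|(k : ℝ)| + |(q : ℝ)|)) ^ 2 :=
    pow_le_pow_left₀ (sz_pos k q).le h3 2
  nlinarith

theorem Apl_o {k q : ℤ} (hk : Odd k) (hq : Even q) : |Apl (k, q) - g k q| ≤ 64 / sz k q ^ 2 := by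
  have ho : Odd (k + q) := hk.add_even hq
  have h := Apl_asymp (k, q) ho
  have hn := nsq_ge ho
  have hs := sz_pos k q
  have e : Alead (k, q) = g k q := by
    unfold Alead g nsq
    simp [hk]
  rw [e] at h
  refine h.trans ?_
  have hp : 0 < sz k q ^ 2 / 8 := by positivity
  calc 8 / nsq (k, q) ≤ 8 / (sz k q ^ 2 / 8) := by
        apply div_le_div_of_nonneg_left (by norm_num) hp
        exact hn
    _ = 64 / sz k q ^ 2 := by field_simp; norm_num

theorem Apl_e {k q : ℤ} (hk : Even k) (hq : Odd q) : |Apl (k, q) - g q k| ≤ 64 / sz k q ^ 2 := by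
  have ho : Odd (k + q) := hk.add_odd hq
  have h := Apl_asymp (k, q) ho
  have hn := nsq_ge ho
  have hs := sz_pos k q
  have hk' : ¬ Odd k := Int.not_odd_iff_even.2 hk
  have e : Alead (k, q) = g q k := by
    unfold Alead g nsq
    simp [hk', add_comm]
  rw [e] at h
  refine h.trans ?_
  have hp : 0 < sz k q ^ 2 / 8 := by positivity
  calc 8 / nsq (k, q) ≤ 8 / (sz k q ^ 2 / 8) := by
        apply div_le_div_of_nonneg_left (by norm_num) hp
        exact hn
    _ = 64 / sz k q ^ 2 := by field_simp; norm_num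

theorem sz_shift (k q a b : ℤ) (ha : |a| ≤ 1) (hb : |b| ≤ 1) :
    sz k q ≤ 3 * sz (k + a) (q + b) := by
  have haR : |(a : ℝ)| ≤ 1 := by exact_mod_cast ha
  have hbR : |(b : ℝ)| ≤ 1 := by exact_mod_cast hb
  have h1 := abs_ge_sub (k : ℝ) a
  have h2 := abs_ge_sub (q : ℝ) b
  have h3 := abs_nonneg ((k : ℝ) + a)
  have h4 := abs_nonneg ((q : ℝ) + b)
  unfold sz
  push_cast
  linarith

theorem Apl_o' {k q a b : ℤ} (ha : |a| ≤ 1) (hb : |b| ≤ 1) (hk : Odd (k + a)) (hq : Even (q + b)) :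
    |Apl (k + a, q + b) - g k q| ≤ 640 / sz k q ^ 2 := by
  have h1 := Apl_o hk hq
  have h2 := g_lip k q a b ha hb
  have h3 := sz_shift k q a b ha hb
  have hs := sz_pos k q
  have hs' := sz_pos (k + a) (q + b)
  have h4 : 64 / sz (k + a) (q + b) ^ 2 ≤ 576 / sz k q ^ 2 := by
    rw [div_le_div_iff₀ (by positivity) (by positivity)]
    have : sz k q ^ 2 ≤ (3 * sz (k + a) (q + b)) ^ 2 := pow_le_pow_left₀ hs.le h3 2
    nlinarith
  have e : Apl (k + a, q + b) - g k q = (Apl (k + a, q + b) - g ((k + a : ℤ) : ℝ) ((q + b : ℤ) : ℝ)) +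
      (g ((k + a : ℤ) : ℝ) ((q + b : ℤ) : ℝ) - g k q) := by ring
  rw [e]
  refine (abs_add_le _ _).trans ((add_le_add (h1.trans h4) h2).trans (le_of_eq ?_))
  ring

theorem Apl_e' {k q a b : ℤ} (ha : |a| ≤ 1) (hb : |b| ≤ 1) (hk : Even (k + a)) (hq : Odd (q + b)) :
    |Apl (k + a, q + b) - g q k| ≤ 640 / sz k q ^ 2 := by
  have h1 := Apl_e hk hq
  have h2 := g_lip q k b a hb ha
  have h3 := sz_shift k q a b ha hb
  have hs := sz_pos k q
  have hs' := sz_pos (k + a) (q + b)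
  rw [sz_comm q k] at h2
  have h4 : 64 / sz (k + a) (q + b) ^ 2 ≤ 576 / sz k q ^ 2 := by
    rw [div_le_div_iff₀ (by positivity) (by positivity)]
    have : sz k q ^ 2 ≤ (3 * sz (k + a) (q + b)) ^ 2 := pow_le_pow_left₀ hs.le h3 2
    nlinarith
  have e : Apl (k + a, q + b) - g q k = (Apl (k + a, q + b) - g ((q + b : ℤ) : ℝ) ((k + a : ℤ) : ℝ)) +
      (g ((q + b : ℤ) : ℝ) ((k + a : ℤ) : ℝ) - g q k) := by ring
  rw [e]
  refine (abs_add_le _ _).trans ((add_le_add (h1.trans h4) h2).trans (le_of_eq ?_))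
  ring

theorem prod_err {A B a b s : ℝ} (hs : 1 ≤ s) (hA : |A - a| ≤ 640 / s ^ 2)
    (hB : |B - b| ≤ 640 / s ^ 2) (ha : |a| ≤ 2 / s) (hb : |b| ≤ 2 / s) :
    |A * B - a * b| ≤ 500000 / s ^ 3 := by
  have hs0 : 0 < s := lt_of_lt_of_le one_pos hs
  have h1 : 640 / s ^ 2 ≤ 640 / s := by
    apply div_le_div_of_nonneg_left (by norm_num) hs0
    nlinarith
  have hB' : |B| ≤ 642 / s := by
    have e : B = (B - b) + b := by ring
    rw [e]
    refine (abs_add_le _ _).trans ((add_le_add (hB.trans h1) hb).trans (le_of_eq ?_))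
    ring
  have e : A * B - a * b = (A - a) * B + a * (B - b) := by ring
  rw [e]
  calc |(A - a) * B + a * (B - b)| ≤ |(A - a) * B| + |a * (B - b)| := abs_add_le _ _
    _ = |A - a| * |B| + |a| * |B - b| := by rw [abs_mul, abs_mul]
    _ ≤ (640 / s ^ 2) * (642 / s) + (2 / s) * (640 / s ^ 2) := by
        apply add_le_add
        · exact mul_le_mul hA hB' (abs_nonneg _) (by positivity)
        · exact mul_le_mul ha hB (abs_nonneg _) (by positivity)
    _ = 412160 / s ^ 3 := by field_simp; norm_num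
    _ ≤ 500000 / s ^ 3 := by gcongr; norm_num

/-- leading part of `CV` -/
noncomputable def LL (k q : ℤ) : ℝ := if Even k then g q k ^ 2 else - g k q ^ 2

theorem CV_err (k q : ℤ) : |CV Apl (k, q) - LL k q| ≤ 1000000 / sz k q ^ 3 := by
  have hs := one_le_sz k q
  have hs0 := sz_pos k q
  have g1 := abs_g_le_one k q
  have g2 := abs_g_le_one q k
  rw [sz_comm q k] at g2
  have h0 : |(0 : ℤ)| ≤ 1 := by norm_num
  have h1 : |(1 : ℤ)| ≤ 1 := by norm_num
  have hm : |(-1 : ℤ)| ≤ 1 := by norm_num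
  have hw : 500000 / sz k q ^ 3 ≤ 1000000 / sz k q ^ 3 := by gcongr; norm_num
  rcases Int.even_or_odd k with hk | hk <;> rcases Int.even_or_odd q with hq | hq
  · have b1 := Apl_e' (a := 0) (b := 1) h0 h1 (by simpa using hk) hq.add_one
    have b2 := Apl_e' (a := 0) (b := -1) h0 hm (by simpa using hk) (hq.add_odd (by decide))
    rw [add_zero] at b1 b2
    have b3 := prod_err hs b1 b2 g2 g2
    unfold CV LL
    simp only [hk, hq, if_true]
    have hδ : |(if ((k, q) : Pt) = 0 then Apl (0, 1) else 0)| ≤ 500000 / sz k q ^ 3 := by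
      split_ifs with h
      · have hk0 : k = 0 := congrArg Prod.fst h
        have hq0 : q = 0 := congrArg Prod.snd h
        subst hk0; subst hq0
        have c1 := Apl_e' (k := 0) (q := 0) (a := 0) (b := 1) h0 h1 (by decide) (by decide)
        have c2 := abs_g_le_one 0 0
        have c3 : sz 0 0 = 1 := by simp [sz]
        rw [c3] at c1 c2 ⊢
        have c4 : g ((0 : ℤ) : ℝ) ((0 : ℤ) : ℝ) = 0 := by simp [g]
        rw [c4, sub_zero] at c1
        simp only [zero_add] at c1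
        refine c1.trans (by norm_num)
      · rw [abs_zero]; positivity
    have e : (if ((k, q) : Pt) = 0 then Apl (0, 1) else 0) + Apl (k, q + 1) * Apl (k, q - 1) -
        g q k ^ 2 = (if ((k, q) : Pt) = 0 then Apl (0, 1) else 0) +
          (Apl (k, q + 1) * Apl (k, q + -1) - g q k * g q k) := by
      rw [← sub_eq_add_neg]; ring
    rw [e]
    refine (abs_add_le _ _).trans ((add_le_add hδ b3).trans (le_of_eq ?_))
    ring
  · have b1 := Apl_e' (k := k) (q := q) (a := 0) (b := 0) h0 h0 (by simpa using hk) (by simpa using hq)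
    rw [add_zero, add_zero] at b1
    have b3 := prod_err hs b1 b1 g2 g2
    unfold CV LL
    have hq' : ¬ Even q := Int.not_even_iff_odd.2 hq
    simp only [hk, hq', if_true, if_false]
    rw [pow_two, pow_two]
    exact b3.trans hw
  · have b1 := Apl_o' (k := k) (q := q) (a := 0) (b := 0) h0 h0 (by simpa using hk) (by simpa using hq)
    rw [add_zero, add_zero] at b1
    have b3 := prod_err hs b1 b1 g1 g1
    unfold CV LL
    have hk' : ¬ Even k := Int.not_even_iff_odd.2 hk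
    simp only [hk', hq, if_true, if_false]
    have e : -Apl (k, q) ^ 2 - -g k q ^ 2 = -(Apl (k, q) * Apl (k, q) - g k q * g k q) := by ring
    rw [e, abs_neg]
    exact b3.trans hw
  · have b1 := Apl_o' (a := 0) (b := 1) h0 h1 (by simpa using hk) hq.add_one
    have b2 := Apl_o' (a := 0) (b := -1) h0 hm (by simpa using hk) (hq.add_odd (by decide))
    rw [add_zero] at b1 b2
    have b3 := prod_err hs b1 b2 g1 g1
    unfold CV LL
    have hk' : ¬ Even k := Int.not_even_iff_odd.2 hk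
    have hq' : ¬ Even q := Int.not_even_iff_odd.2 hq
    simp only [hk', hq', if_false]
    have e : -(Apl (k, q + 1) * Apl (k, q - 1)) - -g k q ^ 2 =
        -(Apl (k, q + 1) * Apl (k, q + -1) - g k q * g k q) := by
      rw [← sub_eq_add_neg]; ring
    rw [e, abs_neg]
    exact b3.trans hw

theorem TT_err (k q : ℤ) : |TT Apl (k, q) - g k q * g q k| ≤ 500000 / sz k q ^ 3 := by
  have hs := one_le_sz k q
  have hs0 := sz_pos k q
  have g1 := abs_g_le_one k q
  have g2 := abs_g_le_one q k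
  rw [sz_comm q k] at g2
  have h0 : |(0 : ℤ)| ≤ 1 := by norm_num
  have h1 : |(1 : ℤ)| ≤ 1 := by norm_num
  have hm : |(-1 : ℤ)| ≤ 1 := by norm_num
  rcases Int.even_or_odd k with hk | hk <;> rcases Int.even_or_odd q with hq | hq
  · have b1 := Apl_e' (a := 0) (b := -1) h0 hm (by simpa using hk) (hq.add_odd (by decide))
    have b2 := Apl_o' (a := 1) (b := 0) h1 h0 hk.add_one (by simpa using hq)
    rw [add_zero] at b1 b2
    have b3 := prod_err hs b1 b2 g2 g1
    unfold TT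
    simp only [hk.add hq, if_true]
    rw [sub_eq_add_neg q 1, mul_comm (g k q)]
    exact b3
  · have b1 := Apl_e' (k := k) (q := q) (a := 0) (b := 0) h0 h0 (by simpa using hk) (by simpa using hq)
    have b2 := Apl_o' (k := k) (q := q) (a := 1) (b := -1) h1 hm hk.add_one (hq.add_odd (by decide))
    rw [add_zero, add_zero] at b1
    have b3 := prod_err hs b1 b2 g2 g1
    unfold TT
    have hkq : ¬ Even (k + q) := Int.not_even_iff_odd.2 (hk.add_odd hq)
    simp only [hkq, if_false]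
    rw [sub_eq_add_neg q 1, mul_comm (g k q)]
    exact b3
  · have b1 := Apl_o' (k := k) (q := q) (a := 0) (b := 0) h0 h0 (by simpa using hk) (by simpa using hq)
    have b2 := Apl_e' (k := k) (q := q) (a := 1) (b := -1) h1 hm hk.add_one (hq.add_odd (by decide))
    rw [add_zero, add_zero] at b1
    have b3 := prod_err hs b1 b2 g1 g2
    unfold TT
    have hkq : ¬ Even (k + q) := Int.not_even_iff_odd.2 (hk.add_even hq)
    simp only [hkq, if_false]
    rw [sub_eq_add_neg q 1]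
    exact b3
  · have b1 := Apl_o' (a := 0) (b := -1) h0 hm (by simpa using hk) (hq.add_odd (by decide))
    have b2 := Apl_e' (a := 1) (b := 0) h1 h0 hk.add_one (by simpa using hq)
    rw [add_zero] at b1 b2
    have b3 := prod_err hs b1 b2 g1 g2
    unfold TT
    simp only [hk.add_odd hq, if_true]
    rw [sub_eq_add_neg q 1]
    exact b3

/-! ## telescoping -/

/-- potential of `CV` along rows -/
noncomputable def PX (k q : ℤ) : ℝ :=
  -(1 / (2 * Real.pi)) * g k q + sg k / (4 * Real.pi ^ 2 * ((k : ℝ) ^ 2 + (q : ℝ) ^ 2))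

/-- potential of `TT` along rows -/
noncomputable def PY (k q : ℤ) : ℝ := (1 / (2 * Real.pi)) * g q k

theorem small_of_sz {k q : ℤ} (h : ¬ 2 ≤ |k| + |q|) : sz k q ≤ 2 := by
  have h1 : |k| + |q| ≤ 1 := by omega
  have h2 : |(k : ℝ)| + |(q : ℝ)| ≤ 1 := by exact_mod_cast h1
  unfold sz
  linarith

theorem abs_sg (k : ℤ) : |sg k| = 1 := by
  unfold sg; split_ifs <;> norm_num

theorem osc_le (k q : ℤ) :
    |sg k / (4 * Real.pi ^ 2 * ((k : ℝ) ^ 2 + (q : ℝ) ^ 2))| ≤ 1 := by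
  rw [abs_div, abs_sg]
  by_cases h : (k : ℝ) ^ 2 + (q : ℝ) ^ 2 = 0
  · rw [h]; simp
  have hn : (1 : ℝ) ≤ (k : ℝ) ^ 2 + (q : ℝ) ^ 2 := by
    have h1 : (0 : ℝ) < (k : ℝ) ^ 2 + (q : ℝ) ^ 2 := lt_of_le_of_ne (by positivity) (Ne.symm h)
    have h2 : (0 : ℤ) < k ^ 2 + q ^ 2 := by exact_mod_cast h1
    have h3 : (1 : ℤ) ≤ k ^ 2 + q ^ 2 := h2
    exact_mod_cast h3
  have hpi := Real.pi_gt_three
  rw [abs_of_pos (by positivity), div_le_one (by positivity)]
  nlinarith [mul_pos (show (0:ℝ) < Real.pi by linarith) (show (0:ℝ) < Real.pi by linarith)]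

theorem abs_PX_le (k q : ℤ) : |PX k q| ≤ 2 := by
  unfold PX
  have h1 := abs_g_le k q
  have h2 := osc_le k q
  have hpi := Real.pi_gt_three
  have h3 : |-(1 / (2 * Real.pi)) * g k q| ≤ 1 := by
    rw [abs_mul, abs_neg, abs_of_pos (by positivity)]
    have : 1 / (2 * Real.pi) ≤ 1 := by
      rw [div_le_one (by positivity)]; linarith
    calc 1 / (2 * Real.pi) * |g k q| ≤ 1 * 1 :=
          mul_le_mul this h1 (abs_nonneg _) zero_le_one
      _ = 1 := by norm_num
  exact (abs_add_le _ _).trans (by linarith)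

theorem abs_PY_le (k q : ℤ) : |PY k q| ≤ 1 := by
  unfold PY
  have h1 := abs_g_le q k
  have hpi := Real.pi_gt_three
  rw [abs_mul, abs_of_pos (by positivity)]
  have : 1 / (2 * Real.pi) ≤ 1 := by
    rw [div_le_one (by positivity)]; linarith
  calc 1 / (2 * Real.pi) * |g q k| ≤ 1 * 1 :=
        mul_le_mul this h1 (abs_nonneg _) zero_le_one
    _ = 1 := by norm_num

theorem abs_LL_le (k q : ℤ) : |LL k q| ≤ 1 := by
  unfold LL
  split_ifs
  · rw [abs_pow]; exact pow_le_one₀ (abs_nonneg _) (abs_g_le q k)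
  · rw [abs_neg, abs_pow]; exact pow_le_one₀ (abs_nonneg _) (abs_g_le k q)

/-- lower bounds for the denominators in the main range -/
theorem denoms {k q : ℤ} (h : 2 ≤ |k| + |q|) :
    sz k q ^ 2 / 8 ≤ (k : ℝ) ^ 2 + (q : ℝ) ^ 2 ∧
      sz k q ^ 2 / 18 ≤ ((k : ℝ) + 1) ^ 2 + (q : ℝ) ^ 2 := by
  have hR : (2 : ℝ) ≤ |(k : ℝ)| + |(q : ℝ)| := by exact_mod_cast h
  have hs := sz_pos k q
  constructor
  · have h2 := nn_ge k q
    have h3 : sz k q ≤ 2 * (|(k : ℝ)| + |(q : ℝ)|) := by unfold sz; linarith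
    have h4 : sz k q ^ 2 ≤ (2 * (|(k : ℝ)| + |(q : ℝ)|)) ^ 2 := pow_le_pow_left₀ hs.le h3 2
    nlinarith
  · have h1 := abs_ge_sub (k : ℝ) 1
    rw [abs_one] at h1
    have h2 := nn_ge ((k : ℝ) + 1) q
    have h3 : sz k q ≤ 3 * (|(k : ℝ) + 1| + |(q : ℝ)|) := by unfold sz; linarith
    have h4 : sz k q ^ 2 ≤ (3 * (|(k : ℝ) + 1| + |(q : ℝ)|)) ^ 2 := pow_le_pow_left₀ hs.le h3 2
    nlinarith

/-- common final estimate -/
theorem final_est {s n n' num : ℝ} (hs : 0 < s) (hn : s ^ 2 / 8 ≤ n) (hn' : s ^ 2 / 18 ≤ n')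
    (hnum : num ≤ s) : num / (n * n') ≤ 144 / s ^ 3 := by
  have h1 : 0 < s ^ 2 / 8 := by positivity
  have h2 : 0 < s ^ 2 / 18 := by positivity
  have hnp : 0 < n := lt_of_lt_of_le h1 hn
  have hnp' : 0 < n' := lt_of_lt_of_le h2 hn'
  calc num / (n * n') ≤ s / (n * n') := by gcongr
    _ ≤ s / ((s ^ 2 / 8) * (s ^ 2 / 18)) := by gcongr
    _ = 144 / s ^ 3 := by field_simp; norm_num

theorem alg1 {x y n n' : ℝ} (hn : n = x ^ 2 + y ^ 2) (hn' : n' = n + (2 * x + 1))
    (h1 : n ≠ 0) (h2 : n' ≠ 0) :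
    (y ^ 2 - x ^ 2) / n ^ 2 + x / n - (x + 1) / n' =
      ((y ^ 2 - x ^ 2) * (2 * x + 1) / n + x) / (n * n') := by
  have hyx : y ^ 2 = n - x ^ 2 := by rw [hn]; ring
  rw [hyx]
  rw [eq_div_iff (mul_ne_zero h1 h2)]
  have e1 : ((n - x ^ 2 - x ^ 2) / n ^ 2 + x / n - (x + 1) / n') * (n * n') =
      (n - x ^ 2 - x ^ 2) * n' / n + x * n' - (x + 1) * n := by
    field_simp
  rw [e1, hn']
  field_simp
  ring

theorem alg2 {x n n' : ℝ} (hn' : n' = n + (2 * x + 1)) (h1 : n ≠ 0) (h2 : n' ≠ 0) :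
    1 / (2 * n) - 1 / (4 * n) - 1 / (4 * n') = (1 / 4) * ((2 * x + 1) / (n * n')) := by
  have h4 : 2 * x + 1 = n' - n := by linarith
  rw [h4]
  field_simp
  ring

theorem alg3 {x y n n' p ε : ℝ} (hn : n = x ^ 2 + y ^ 2) (hn' : n' = n + (2 * x + 1))
    (h1 : n ≠ 0) (h2 : n' ≠ 0) (hp : p ≠ 0) :
    ((1 / (2 * p ^ 2)) * ((y ^ 2 - x ^ 2) / n ^ 2) + ε * (1 / (2 * p ^ 2)) * (1 / n)) -
      ((-(1 / (2 * p ^ 2)) * (x / n) + ε / (4 * p ^ 2 * n)) -
        (-(1 / (2 * p ^ 2)) * ((x + 1) / n') - ε / (4 * p ^ 2 * n'))) =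
      (1 / (2 * p ^ 2)) * (((y ^ 2 - x ^ 2) * (2 * x + 1) / n + x) / (n * n')) +
      ε * (1 / (4 * p ^ 2)) * ((2 * x + 1) / (n * n')) := by
  have e1 := alg1 hn hn' h1 h2
  have e2 := alg2 hn' h1 h2
  have hp2 : p ^ 2 ≠ 0 := pow_ne_zero 2 hp
  calc _ = (1 / (2 * p ^ 2)) * ((y ^ 2 - x ^ 2) / n ^ 2 + x / n - (x + 1) / n') +
        ε * (1 / p ^ 2) * (1 / (2 * n) - 1 / (4 * n) - 1 / (4 * n')) := by
          field_simp
          ring
    _ = _ := by rw [e1, e2]; ring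

theorem LL_eq {k q : ℤ} {n : ℝ} (hn : n = (k : ℝ) ^ 2 + (q : ℝ) ^ 2) (h : n ≠ 0) :
    LL k q = (1 / (2 * Real.pi ^ 2)) * (((q : ℝ) ^ 2 - (k : ℝ) ^ 2) / n ^ 2) +
      sg k * (1 / (2 * Real.pi ^ 2)) * (1 / n) := by
  have gx : g k q = k / (Real.pi * n) := by rw [hn]; rfl
  have gy : g q k = q / (Real.pi * n) := by unfold g; rw [hn, add_comm]
  have hpi := Real.pi_ne_zero
  have e : (1 : ℝ) / n = ((k : ℝ) ^ 2 + (q : ℝ) ^ 2) / n ^ 2 := by rw [← hn]; field_simp
  unfold LL sg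
  rw [gx, gy, e]
  split_ifs
  · field_simp; ring
  · field_simp; ring

theorem PX_eq {k q : ℤ} {n : ℝ} (hn : n = (k : ℝ) ^ 2 + (q : ℝ) ^ 2) :
    PX k q = -(1 / (2 * Real.pi ^ 2)) * ((k : ℝ) / n) + sg k / (4 * Real.pi ^ 2 * n) := by
  have gx : g k q = k / (Real.pi * n) := by rw [hn]; rfl
  unfold PX
  rw [gx, ← hn]
  have hpi := Real.pi_ne_zero
  congr 1
  field_simp

theorem bd1 {x y n n' ε s : ℝ} (hε : |ε| = 1) (hn : n = x ^ 2 + y ^ 2) (hs : 0 < s)
    (d1 : s ^ 2 / 8 ≤ n) (d2 : s ^ 2 / 18 ≤ n') (hxs : |x| + |y| ≤ s - 1) :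
    |(1 / (2 * Real.pi ^ 2)) * (((y ^ 2 - x ^ 2) * (2 * x + 1) / n + x) / (n * n')) +
      ε * (1 / (4 * Real.pi ^ 2)) * ((2 * x + 1) / (n * n'))| ≤ 144 / s ^ 3 := by
  have hnp : 0 < n := lt_of_lt_of_le (by positivity) d1
  have hnp' : 0 < n' := lt_of_lt_of_le (by positivity) d2
  have hpi := Real.pi_gt_three
  have hyn := abs_nonneg y
  have hB : |2 * x + 1| ≤ 2 * |x| + 1 := by
    refine (abs_add_le _ _).trans ?_
    rw [abs_mul, abs_two, abs_one]
  have hA : |(y ^ 2 - x ^ 2) * (2 * x + 1) / n + x| ≤ 3 * |x| + 1 := by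
    have a1 : |(y ^ 2 - x ^ 2) * (2 * x + 1) / n| ≤ 2 * |x| + 1 := by
      rw [abs_div, abs_mul, abs_of_pos hnp, div_le_iff₀ hnp]
      have b1 : |y ^ 2 - x ^ 2| ≤ n := by
        have := sq_nonneg x
        have := sq_nonneg y
        rw [abs_le]; constructor <;> rw [hn] <;> linarith
      calc |y ^ 2 - x ^ 2| * |2 * x + 1| ≤ n * (2 * |x| + 1) :=
            mul_le_mul b1 hB (abs_nonneg _) hnp.le
        _ = (2 * |x| + 1) * n := by ring
    refine (abs_add_le _ _).trans ?_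
    linarith
  have hpisq : 9 ≤ Real.pi ^ 2 := by nlinarith
  have c1 : 1 / (2 * Real.pi ^ 2) ≤ 1 / 18 := by
    apply one_div_le_one_div_of_le (by norm_num); linarith
  have c2 : 1 / (4 * Real.pi ^ 2) ≤ 1 / 36 := by
    apply one_div_le_one_div_of_le (by norm_num); linarith
  have hnn : 0 < n * n' := by positivity
  have hc1 : 0 < 1 / (2 * Real.pi ^ 2) := by positivity
  have hc2 : 0 < 1 / (4 * Real.pi ^ 2) := by positivity
  refine (abs_add_le _ _).trans ?_
  have t1 : |(1 / (2 * Real.pi ^ 2)) * (((y ^ 2 - x ^ 2) * (2 * x + 1) / n + x) / (n * n'))| ≤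
      (1 / 18) * ((3 * |x| + 1) / (n * n')) := by
    rw [abs_mul _ (((y ^ 2 - x ^ 2) * (2 * x + 1) / n + x) / (n * n')), abs_of_pos hc1,
      abs_div _ (n * n'), abs_of_pos hnn]
    apply mul_le_mul c1 _ (by positivity) (by norm_num)
    gcongr
  have t2 : |ε * (1 / (4 * Real.pi ^ 2)) * ((2 * x + 1) / (n * n'))| ≤
      (1 / 36) * ((2 * |x| + 1) / (n * n')) := by
    rw [abs_mul _ ((2 * x + 1) / (n * n')), abs_mul ε, hε, one_mul, abs_of_pos hc2,
      abs_div _ (n * n'), abs_of_pos hnn]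
    apply mul_le_mul c2 _ (by positivity) (by norm_num)
    gcongr
  calc _ ≤ (1 / 18) * ((3 * |x| + 1) / (n * n')) + (1 / 36) * ((2 * |x| + 1) / (n * n')) :=
        add_le_add t1 t2
    _ = ((8 * |x| + 3) / 36) / (n * n') := by ring
    _ ≤ 144 / s ^ 3 := by
        apply final_est hs d1 d2
        have := abs_nonneg x
        linarith

theorem LL_tele (k q : ℤ) : |LL k q - (PX k q - PX (k + 1) q)| ≤ 144 / sz k q ^ 3 := by
  have hs := one_le_sz k q
  have hs0 := sz_pos k q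
  by_cases h : 2 ≤ |k| + |q|
  swap
  · have h2 := small_of_sz h
    have h3 : |LL k q - (PX k q - PX (k + 1) q)| ≤ 5 := by
      have a1 := abs_LL_le k q
      have a2 := abs_PX_le k q
      have a3 := abs_PX_le (k + 1) q
      have := abs_sub (LL k q) (PX k q - PX (k + 1) q)
      have := abs_sub (PX k q) (PX (k + 1) q)
      linarith
    refine h3.trans ?_
    rw [le_div_iff₀ (by positivity)]
    have : sz k q ^ 3 ≤ 2 ^ 3 := pow_le_pow_left₀ hs0.le h2 3
    linarith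
  obtain ⟨d1, d2⟩ := denoms h
  have hnp : 0 < (k : ℝ) ^ 2 + (q : ℝ) ^ 2 := lt_of_lt_of_le (by positivity) d1
  have hnp' : 0 < ((k : ℝ) + 1) ^ 2 + (q : ℝ) ^ 2 := lt_of_lt_of_le (by positivity) d2
  have hn1 : ((k : ℝ) + 1) ^ 2 + (q : ℝ) ^ 2 = ((k : ℝ) ^ 2 + (q : ℝ) ^ 2) + (2 * k + 1) := by ring
  have hn2 : ((k : ℝ) + 1) ^ 2 + (q : ℝ) ^ 2 = ((k + 1 : ℤ) : ℝ) ^ 2 + (q : ℝ) ^ 2 := by
    push_cast; ring
  rw [LL_eq rfl hnp.ne', PX_eq rfl, PX_eq hn2, sg_add_one]
  have e1 : -(1 / (2 * Real.pi ^ 2)) * (((k + 1 : ℤ) : ℝ) / (((k : ℝ) + 1) ^ 2 + (q : ℝ) ^ 2)) +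
      -sg k / (4 * Real.pi ^ 2 * (((k : ℝ) + 1) ^ 2 + (q : ℝ) ^ 2)) =
      -(1 / (2 * Real.pi ^ 2)) * (((k : ℝ) + 1) / (((k : ℝ) + 1) ^ 2 + (q : ℝ) ^ 2)) -
      sg k / (4 * Real.pi ^ 2 * (((k : ℝ) + 1) ^ 2 + (q : ℝ) ^ 2)) := by
    push_cast; ring
  rw [e1, alg3 rfl hn1 hnp.ne' hnp'.ne' Real.pi_ne_zero]
  exact bd1 (abs_sg k) rfl hs0 d1 d2 (by unfold sz; linarith)

theorem TT_tele (k q : ℤ) : |g k q * g q k - (PY k q - PY (k + 1) q)| ≤ 144 / sz k q ^ 3 := by
  have hs := one_le_sz k q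
  have hs0 := sz_pos k q
  by_cases h : 2 ≤ |k| + |q|
  swap
  · have h2 := small_of_sz h
    have h3 : |g k q * g q k - (PY k q - PY (k + 1) q)| ≤ 3 := by
      have a1 : |g k q * g q k| ≤ 1 := by
        rw [abs_mul]
        exact mul_le_one₀ (abs_g_le k q) (abs_nonneg _) (abs_g_le q k)
      have a2 := abs_PY_le k q
      have a3 := abs_PY_le (k + 1) q
      have := abs_sub (g k q * g q k) (PY k q - PY (k + 1) q)
      have := abs_sub (PY k q) (PY (k + 1) q)
      linarith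
    refine h3.trans ?_
    rw [le_div_iff₀ (by positivity)]
    have : sz k q ^ 3 ≤ 2 ^ 3 := pow_le_pow_left₀ hs0.le h2 3
    linarith
  obtain ⟨d1, d2⟩ := denoms h
  set n := (k : ℝ) ^ 2 + (q : ℝ) ^ 2 with hn
  set n' := ((k : ℝ) + 1) ^ 2 + (q : ℝ) ^ 2 with hn'
  have hnp : 0 < n := lt_of_lt_of_le (by positivity) d1
  have hnp' : 0 < n' := lt_of_lt_of_le (by positivity) d2
  have hpi := Real.pi_gt_three
  set x : ℝ := (k : ℝ) with hx
  set y : ℝ := (q : ℝ) with hy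
  have gx : g x y = x / (Real.pi * n) := rfl
  have gy : g y x = y / (Real.pi * n) := by unfold g; rw [hn, add_comm]
  have gy' : g y ((k + 1 : ℤ) : ℝ) = y / (Real.pi * n') := by
    unfold g; push_cast; rw [hn', add_comm]
  have hdiff : n' - n = 2 * x + 1 := by rw [hn, hn']; ring
  have key : g x y * g y x - (PY k q - PY (k + 1) q) =
      (1 / (2 * Real.pi ^ 2)) * (y * ((2 * x * (2 * x + 1)) / n - 1) / (n * n')) := by
    unfold PY
    rw [← hx, ← hy, gy', gx, gy]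
    have h4 : 2 * x + 1 = n' - n := by linarith
    rw [h4]
    field_simp
    ring
  rw [key]
  have hyn := abs_nonneg y
  have hx2 : |x| * |x| ≤ n := by rw [abs_mul_abs_self, hn]; nlinarith [sq_nonneg y]
  have hxn : |x| ≤ n := by
    by_cases hk0 : k = 0
    · have : x = 0 := by rw [hx, hk0]; simp
      rw [this, abs_zero]; exact hnp.le
    · have h1 : (1 : ℤ) ≤ |k| := Int.one_le_abs hk0
      have h2 : (1 : ℝ) ≤ |x| := by rw [hx]; exact_mod_cast h1
      nlinarith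
  have hA : |(2 * x * (2 * x + 1)) / n - 1| ≤ 7 := by
    have a1 : |(2 * x * (2 * x + 1)) / n| ≤ 6 := by
      rw [abs_div, abs_of_pos hnp, div_le_iff₀ hnp]
      have b1 : |2 * x * (2 * x + 1)| ≤ 4 * (|x| * |x|) + 2 * |x| := by
        have e : 2 * x * (2 * x + 1) = 4 * (x * x) + 2 * x := by ring
        rw [e]
        refine (abs_add_le _ _).trans ?_
        rw [abs_mul, abs_mul, abs_mul, abs_two, abs_of_pos (by norm_num : (0:ℝ) < 4)]
      linarith
    refine (abs_sub _ _).trans ?_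
    rw [abs_one]; linarith
  have hpisq : 9 ≤ Real.pi ^ 2 := by nlinarith
  have c1 : 1 / (2 * Real.pi ^ 2) ≤ 1 / 18 := by
    apply one_div_le_one_div_of_le (by norm_num); linarith
  have hnn : 0 < n * n' := by positivity
  have hxs : |x| + |y| = sz k q - 1 := by unfold sz; ring
  calc |(1 / (2 * Real.pi ^ 2)) * (y * ((2 * x * (2 * x + 1)) / n - 1) / (n * n'))|
      = (1 / (2 * Real.pi ^ 2)) * (|y| * |(2 * x * (2 * x + 1)) / n - 1| / (n * n')) := by
        rw [abs_mul _ (y * ((2 * x * (2 * x + 1)) / n - 1) / (n * n')), abs_div _ (n * n'),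
          abs_mul y, abs_of_pos hnn, abs_of_pos (by positivity : 0 < 1 / (2 * Real.pi ^ 2))]
    _ ≤ (1 / 18) * (|y| * 7 / (n * n')) := by gcongr
    _ = (7 * |y| / 18) / (n * n') := by ring
    _ ≤ 144 / sz k q ^ 3 := by
        apply final_est hs0 d1 d2
        have := abs_nonneg x
        linarith

/-- summary: `CV` and `TT` are discrete derivatives up to third order terms -/
theorem CV_tele (k q : ℤ) :
    |CV Apl (k, q) - (PX k q - PX (k + 1) q)| ≤ 2000000 / sz k q ^ 3 := by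
  have h1 := CV_err k q
  have h2 := LL_tele k q
  have hs0 := sz_pos k q
  have e : CV Apl (k, q) - (PX k q - PX (k + 1) q) =
      (CV Apl (k, q) - LL k q) + (LL k q - (PX k q - PX (k + 1) q)) := by ring
  rw [e]
  refine (abs_add_le _ _).trans ((add_le_add h1 h2).trans ?_)
  rw [← add_div]
  gcongr
  norm_num

theorem TT_tele' (k q : ℤ) :
    |TT Apl (k, q) - (PY k q - PY (k + 1) q)| ≤ 2000000 / sz k q ^ 3 := by
  have h1 := TT_err k q
  have h2 := TT_tele k q
  have hs0 := sz_pos k q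
  have e : TT Apl (k, q) - (PY k q - PY (k + 1) q) =
      (TT Apl (k, q) - g k q * g q k) + (g k q * g q k - (PY k q - PY (k + 1) q)) := by ring
  rw [e]
  refine (abs_add_le _ _).trans ((add_le_add h1 h2).trans ?_)
  rw [← add_div]
  gcongr
  norm_num

end Vale.Agent.P155.B1b
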