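import Vale.Agent.P155.B1b.PlaneEq

/-!
# P155, plane covariances of height increments as functions of the displacement
-/

namespace Vale.Agent.P155.B1b

open Classical in
/-- Covariance of the increments across two vertical edges at displacement `z`. -/
noncomputable def CV (A : Pt → ℝ) (z : Pt) : ℝ :=
  if Even z.1 then
    (if Even z.2 then (if z = 0 then A (0, 1) else 0) + A (z.1, z.2 + 1) * A (z.1, z.2 - 1)
      else A z ^ 2)
  else
    (if Even z.2 then - A z ^ 2 else - (A (z.1, z.2 + 1) * A (z.1, z.2 - 1)))

/-- minus the covariance of the increment across a horizontal edge and the increment across a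
vertical edge at displacement `z`. -/
noncomputable def TT (A : Pt → ℝ) (z : Pt) : ℝ :=
  if Even (z.1 + z.2) then A (z.1, z.2 - 1) * A (z.1 + 1, z.2)
  else A z * A (z.1 + 1, z.2 - 1)

end Vale.Agent.P155.B1b
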