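import Vale.Agent.P155.B1b.Line

/-!
# P155: the flux of the plane covariances through a box
-/

namespace Vale.Agent.P155.B1b

open Finset

/-- discrete gradient of the potential kernel -/
noncomputable def GX (p q : ℤ) : ℝ := Apl (2 * p - 1, 2 * q)

/-- discrete gradient of the potential kernel -/
noncomputable def GY (p q : ℤ) : ℝ := Apl (2 * p, 2 * q - 1)

theorem flux_point (u v : ℤ) : GX (u + 1) v - GX u v + (GY u (v + 1) - GY u v) =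
    if u = 0 ∧ v = 0 then 1 else 0 := by
  have h := Apl_rel_even (x := 2 * u) (y := 2 * v) (even_two_mul u) (even_two_mul v)
  unfold GX GY
  have e1 : 2 * (u + 1) - 1 = 2 * u + 1 := by ring
  have e2 : 2 * (v + 1) - 1 = 2 * v + 1 := by ring
  rw [e1, e2, h]
  congr 1
  simp

theorem Icc_eq (ρ : ℤ) : Finset.Icc (-ρ) ρ = Finset.Ico (-ρ) (ρ + 1) := by
  ext x; simp only [Finset.mem_Icc, Finset.mem_Ico]; omega

theorem flux_box {ρ : ℤ} (hρ : 0 ≤ ρ) (c : ℤ) :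
    ∑ v ∈ Finset.Icc (-ρ) ρ, (GX (c + ρ + 1) v - GX (c - ρ) v) +
      ∑ u ∈ Finset.Icc (-ρ) ρ, (GY (c + u) (ρ + 1) - GY (c + u) (-ρ)) =
    ∑ u ∈ Finset.Icc (-ρ) ρ, ∑ v ∈ Finset.Icc (-ρ) ρ,
      (if c + u = 0 ∧ v = 0 then (1 : ℝ) else 0) := by
  have h1 : ∀ v : ℤ, GX (c + ρ + 1) v - GX (c - ρ) v =
      ∑ u ∈ Finset.Icc (-ρ) ρ, (GX (c + u + 1) v - GX (c + u) v) := by
    intro v
    have h := sum_Ico_tele (fun u => GX (c + u) v) (a := -ρ) (b := ρ + 1) (by omega)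
    rw [Icc_eq, show c + ρ + 1 = c + (ρ + 1) by ring, show c - ρ = c + -ρ by ring, ← h]
    apply Finset.sum_congr rfl
    intro u _
    rw [show c + (u + 1) = c + u + 1 by ring]
  have h2 : ∀ u : ℤ, GY (c + u) (ρ + 1) - GY (c + u) (-ρ) =
      ∑ v ∈ Finset.Icc (-ρ) ρ, (GY (c + u) (v + 1) - GY (c + u) v) := by
    intro u
    have h := sum_Ico_tele (fun v => GY (c + u) v) (a := -ρ) (b := ρ + 1) (by omega)
    rw [Icc_eq, ← h]
  simp_rw [h1, h2]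
  rw [Finset.sum_comm, ← Finset.sum_add_distrib]
  apply Finset.sum_congr rfl
  intro u _
  rw [← Finset.sum_add_distrib]
  apply Finset.sum_congr rfl
  intro v _
  exact flux_point (c + u) v

theorem flux_zero {ρ : ℤ} (hρ : 0 ≤ ρ) :
    ∑ v ∈ Finset.Icc (-ρ) ρ, (GX (ρ + 1) v - GX (-ρ) v) +
      ∑ u ∈ Finset.Icc (-ρ) ρ, (GY u (ρ + 1) - GY u (-ρ)) = 1 := by
  have h := flux_box hρ 0
  simp only [zero_add, zero_sub] at h
  rw [h]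
  rw [Finset.sum_eq_single_of_mem (0 : ℤ) (by rw [Finset.mem_Icc]; omega)]
  · rw [Finset.sum_eq_single_of_mem (0 : ℤ) (by rw [Finset.mem_Icc]; omega)]
    · simp
    · intro b _ hb; simp [hb]
  · intro b _ hb
    apply Finset.sum_eq_zero
    intro v _
    simp [hb]

theorem flux_far {ρ : ℤ} (hρ : 1 ≤ ρ) :
    ∑ v ∈ Finset.Icc (-ρ) ρ, (GX (1 - ρ) v - GX (-3 * ρ) v) +
      ∑ u ∈ Finset.Icc (-ρ) ρ, (GY (u - 2 * ρ) (ρ + 1) - GY (u - 2 * ρ) (-ρ)) = 0 := by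
  have h := flux_box (by omega : 0 ≤ ρ) (-2 * ρ)
  have e1 : -2 * ρ + ρ + 1 = 1 - ρ := by ring
  have e2 : -2 * ρ - ρ = -3 * ρ := by ring
  have e3 : ∀ u : ℤ, -2 * ρ + u = u - 2 * ρ := fun u => by ring
  rw [e1, e2] at h
  simp_rw [e3] at h
  rw [h]
  apply Finset.sum_eq_zero
  intro u hu
  apply Finset.sum_eq_zero
  intro v _
  rw [Finset.mem_Icc] at hu
  rw [if_neg]
  rintro ⟨h1, _⟩
  omega

/-! ## approximations -/

theorem g_two_mul (p q : ℤ) : g ((2 * p : ℤ) : ℝ) ((2 * q : ℤ) : ℝ) = (1 / 2) * g p q := by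
  unfold g
  push_cast
  by_cases h : (p : ℝ) ^ 2 + (q : ℝ) ^ 2 = 0
  · have h1 : (p : ℝ) = 0 := by nlinarith [sq_nonneg (p : ℝ), sq_nonneg (q : ℝ)]
    rw [h1]; simp
  · have : (2 * (p : ℝ)) ^ 2 + (2 * (q : ℝ)) ^ 2 = 4 * ((p : ℝ) ^ 2 + (q : ℝ) ^ 2) := by ring
    rw [this]
    have := Real.pi_ne_zero
    field_simp
    ring

theorem sz_double (p q : ℤ) : sz p q ≤ sz (2 * p) (2 * q) := by
  unfold sz
  push_cast
  rw [abs_mul, abs_mul, abs_two]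
  have := abs_nonneg (p : ℝ)
  have := abs_nonneg (q : ℝ)
  linarith

theorem sz_dx (p q : ℤ) : sz p q ≤ sz (2 * p - 1) (2 * q) := by
  by_cases h : p = 0
  · subst h
    unfold sz
    push_cast
    rw [abs_mul, abs_two]
    have := abs_nonneg (q : ℝ)
    norm_num
    linarith
  · have h1 : (1 : ℝ) ≤ |(p : ℝ)| := by
      have := Int.one_le_abs h
      exact_mod_cast this
    have h2 := abs_ge_sub (2 * (p : ℝ)) (-1)
    rw [abs_neg, abs_one, abs_mul, abs_two] at h2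
    have h3 := abs_nonneg (q : ℝ)
    unfold sz
    push_cast
    rw [abs_mul 2 (q : ℝ), abs_two]
    have e : (2 * (p : ℝ) - 1) = 2 * (p : ℝ) + -1 := by ring
    rw [e]
    linarith

theorem GX_g (p q : ℤ) : |GX p q - (1 / 2) * g p q| ≤ 128 / sz p q ^ 2 := by
  have h1 := Apl_o (k := 2 * p - 1) (q := 2 * q) ⟨p - 1, by ring⟩ (even_two_mul q)
  have h2 := g_lip (2 * p) (2 * q) (-1) 0 (by norm_num) (by norm_num)
  rw [g_two_mul] at h2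
  have s1 := sz_dx p q
  have s2 := sz_double p q
  have s0 := sz_pos p q
  have e1 : 2 * p + -1 = 2 * p - 1 := by ring
  rw [e1, add_zero] at h2
  have c1 : 64 / sz (2 * p - 1) (2 * q) ^ 2 ≤ 64 / sz p q ^ 2 := by gcongr
  have c2 : 64 / sz (2 * p) (2 * q) ^ 2 ≤ 64 / sz p q ^ 2 := by gcongr
  unfold GX
  have e : Apl (2 * p - 1, 2 * q) - 1 / 2 * g p q =
      (Apl (2 * p - 1, 2 * q) - g ((2 * p - 1 : ℤ) : ℝ) ((2 * q : ℤ) : ℝ)) +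
      (g ((2 * p - 1 : ℤ) : ℝ) ((2 * q : ℤ) : ℝ) - 1 / 2 * g p q) := by ring
  rw [e]
  refine (abs_add_le _ _).trans ((add_le_add (h1.trans c1) (h2.trans c2)).trans (le_of_eq ?_))
  ring

theorem GY_g (p q : ℤ) : |GY p q - (1 / 2) * g q p| ≤ 128 / sz p q ^ 2 := by
  have h1 := Apl_e (k := 2 * p) (q := 2 * q - 1) (even_two_mul p) ⟨q - 1, by ring⟩
  have h2 := g_lip (2 * q) (2 * p) (-1) 0 (by norm_num) (by norm_num)
  rw [g_two_mul] at h2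
  have s1 := sz_dx q p
  have s2 := sz_double q p
  rw [sz_comm q p] at s1 s2
  rw [sz_comm] at s1
  have s1' : sz p q ≤ sz (2 * p) (2 * q - 1) := by rw [sz_comm (2 * p) (2 * q - 1)]; rwa [sz_comm] at s1
  have s0 := sz_pos p q
  have e1 : 2 * q + -1 = 2 * q - 1 := by ring
  rw [e1, add_zero] at h2
  have c1 : 64 / sz (2 * p) (2 * q - 1) ^ 2 ≤ 64 / sz p q ^ 2 := by gcongr
  have c2 : 64 / sz (2 * q) (2 * p) ^ 2 ≤ 64 / sz p q ^ 2 := by gcongr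
  unfold GY
  have e : Apl (2 * p, 2 * q - 1) - 1 / 2 * g q p =
      (Apl (2 * p, 2 * q - 1) - g ((2 * q - 1 : ℤ) : ℝ) ((2 * p : ℤ) : ℝ)) +
      (g ((2 * q - 1 : ℤ) : ℝ) ((2 * p : ℤ) : ℝ) - 1 / 2 * g q p) := by ring
  rw [e]
  refine (abs_add_le _ _).trans ((add_le_add (h1.trans c1) (h2.trans c2)).trans (le_of_eq ?_))
  ring

theorem PX_GX (p q a : ℤ) (ha : |a| ≤ 1) :
    |PX (p + a) q + (1 / Real.pi) * GX p q| ≤ 100 / sz p q ^ 2 := by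
  have h1 := GX_g p q
  have h2 := g_lip p q a 0 ha (by norm_num)
  rw [add_zero] at h2
  have h3 := osc_le' (p + a) q
  have s := sz_shift p q a 0 ha (by norm_num)
  rw [add_zero] at s
  have s0 := sz_pos p q
  have s1 := sz_pos (p + a) q
  have h3' : 1 / sz (p + a) q ^ 2 ≤ 9 / sz p q ^ 2 := by
    rw [div_le_div_iff₀ (by positivity) (by positivity)]
    have : sz p q ^ 2 ≤ (3 * sz (p + a) q) ^ 2 := pow_le_pow_left₀ s0.le s 2
    nlinarith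
  have hpi := Real.pi_gt_three
  have hpi' : 1 / Real.pi ≤ 1 / 3 := one_div_le_one_div_of_le (by norm_num) hpi.le
  have hpi0 : 0 < 1 / Real.pi := by positivity
  have e : PX (p + a) q + (1 / Real.pi) * GX p q =
      sg (p + a) / (4 * Real.pi ^ 2 * (((p + a : ℤ) : ℝ) ^ 2 + (q : ℝ) ^ 2)) +
      ((1 / Real.pi) * (GX p q - (1 / 2) * g p q) -
        (1 / Real.pi) * ((1 / 2) * (g ((p + a : ℤ) : ℝ) q - g p q))) := by
    unfold PX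
    have : 1 / (2 * Real.pi) = (1 / Real.pi) * (1 / 2) := by
      have := Real.pi_ne_zero; field_simp
    rw [this]
    ring
  rw [e]
  have t1 : |(1 / Real.pi) * (GX p q - (1 / 2) * g p q)| ≤ (1 / 3) * (128 / sz p q ^ 2) := by
    rw [abs_mul, abs_of_pos hpi0]
    exact mul_le_mul hpi' h1 (abs_nonneg _) (by norm_num)
  have t2 : |(1 / Real.pi) * ((1 / 2) * (g ((p + a : ℤ) : ℝ) q - g p q))| ≤
      (1 / 3) * ((1 / 2) * (64 / sz p q ^ 2)) := by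
    rw [abs_mul, abs_of_pos hpi0, abs_mul, abs_of_pos (by norm_num : (0:ℝ) < 1 / 2)]
    apply mul_le_mul hpi' _ (by positivity) (by norm_num)
    exact mul_le_mul_of_nonneg_left h2 (by norm_num)
  have t3 : 9 / sz p q ^ 2 + ((1 / 3) * (128 / sz p q ^ 2) + (1 / 3) * ((1 / 2) * (64 / sz p q ^ 2)))
      ≤ 100 / sz p q ^ 2 := by
    have : 9 / sz p q ^ 2 + ((1 / 3) * (128 / sz p q ^ 2) + (1 / 3) * ((1 / 2) * (64 / sz p q ^ 2)))
      = (9 + 128 / 3 + 64 / 6) / sz p q ^ 2 := by ring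
    rw [this]
    gcongr
    norm_num
  exact (abs_add_le _ _).trans ((add_le_add (h3.trans h3')
    ((abs_sub _ _).trans (add_le_add t1 t2))).trans t3)

theorem PY_GY (p q a : ℤ) (ha : |a| ≤ 1) :
    |PY p (q + a) - (1 / Real.pi) * GY p q| ≤ 100 / sz p q ^ 2 := by
  have h1 := GY_g p q
  have h2 := g_lip q p a 0 ha (by norm_num)
  rw [add_zero, sz_comm q p] at h2
  have s0 := sz_pos p q
  have hpi := Real.pi_gt_three
  have hpi' : 1 / Real.pi ≤ 1 / 3 := one_div_le_one_div_of_le (by norm_num) hpi.le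
  have hpi0 : 0 < 1 / Real.pi := by positivity
  have e : PY p (q + a) - (1 / Real.pi) * GY p q =
      (1 / Real.pi) * ((1 / 2) * (g ((q + a : ℤ) : ℝ) p - g q p)) -
      ((1 / Real.pi) * (GY p q - (1 / 2) * g q p)) := by
    unfold PY
    have : 1 / (2 * Real.pi) = (1 / Real.pi) * (1 / 2) := by
      have := Real.pi_ne_zero; field_simp
    rw [this]
    ring
  rw [e]
  have t1 : |(1 / Real.pi) * (GY p q - (1 / 2) * g q p)| ≤ (1 / 3) * (128 / sz p q ^ 2) := by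
    rw [abs_mul, abs_of_pos hpi0]
    exact mul_le_mul hpi' h1 (abs_nonneg _) (by norm_num)
  have t2 : |(1 / Real.pi) * ((1 / 2) * (g ((q + a : ℤ) : ℝ) p - g q p))| ≤
      (1 / 3) * ((1 / 2) * (64 / sz p q ^ 2)) := by
    rw [abs_mul, abs_of_pos hpi0, abs_mul, abs_of_pos (by norm_num : (0:ℝ) < 1 / 2)]
    apply mul_le_mul hpi' _ (by positivity) (by norm_num)
    exact mul_le_mul_of_nonneg_left h2 (by norm_num)
  have t3 : (1 / 3) * ((1 / 2) * (64 / sz p q ^ 2)) + (1 / 3) * (128 / sz p q ^ 2)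
      ≤ 100 / sz p q ^ 2 := by
    have : (1 / 3) * ((1 / 2) * (64 / sz p q ^ 2)) + (1 / 3) * (128 / sz p q ^ 2)
      = (128 / 3 + 64 / 6) / sz p q ^ 2 := by ring
    rw [this]
    gcongr
    norm_num
  exact (abs_sub _ _).trans ((add_le_add t2 t1).trans t3)

/-! ## the sums over the path -/

noncomputable def SX (ρ p v : ℤ) : ℝ := ∑ k ∈ Finset.Ico (p - 2 * ρ) p, CV Apl (k, v)
noncomputable def SY (ρ u q : ℤ) : ℝ := ∑ k ∈ Finset.Ico (u - 2 * ρ) u, TT Apl (k, q)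

theorem le_sz_left {ρ p q : ℤ} (hρ : 1 ≤ ρ) (h : ρ ≤ 1 + |p|) : 100 / sz p q ^ 2 ≤ 100 / (ρ : ℝ) ^ 2 := by
  have hρR : (1 : ℝ) ≤ ρ := by exact_mod_cast hρ
  have h1 : (ρ : ℝ) ≤ 1 + |(p : ℝ)| := by exact_mod_cast h
  have h2 : (ρ : ℝ) ≤ sz p q := by
    unfold sz; have := abs_nonneg (q : ℝ); linarith
  gcongr

theorem le_sz_right {ρ p q : ℤ} (hρ : 1 ≤ ρ) (h : ρ ≤ 1 + |q|) :
    100 / sz p q ^ 2 ≤ 100 / (ρ : ℝ) ^ 2 := by
  rw [sz_comm]; exact le_sz_left hρ h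

theorem SX_right {ρ a v : ℤ} (hρ : 2 ≤ ρ) (ha : |a| ≤ 1) (hv : |v| ≤ ρ) :
    |SX ρ (ρ + 1 + a) v - (1 / Real.pi) * (GX (ρ + 1) v - GX (1 - ρ) v)| ≤
      13000000 / (ρ : ℝ) ^ 2 := by
  have hρR : (2 : ℝ) ≤ ρ := by exact_mod_cast hρ
  have ha' := abs_le.1 ha
  have hsq : ρ + 2 ≤ 4 * ρ ^ 2 := by nlinarith
  have e1 : ρ + 1 + a - 2 * ρ = 1 - ρ + a := by ring
  have h1 := row_through (a := 1 - ρ + a) (b := ρ + 1 + a) (q := v) (M := 4 * ρ ^ 2)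
    (by omega) (by omega) (by omega) (by omega) (by omega)
  have h2 := PX_GX (1 - ρ) v a ha
  have h3 := PX_GX (ρ + 1) v a ha
  have s2 := le_sz_left (ρ := ρ) (p := 1 - ρ) (q := v) (by omega)
    (by have := neg_abs_le (1 - ρ); omega)
  have s3 := le_sz_left (ρ := ρ) (p := ρ + 1) (q := v) (by omega)
    (by have := le_abs_self (ρ + 1); omega)
  have haR := abs_le.1 (show |(a : ℝ)| ≤ 1 by exact_mod_cast ha)
  have b1 : 8000000 / ((4 * ρ ^ 2 : ℤ) : ℝ) ≤ 2000000 / (ρ : ℝ) ^ 2 := by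
    push_cast
    apply le_of_eq
    field_simp
    norm_num
  have b2 : 2000000 / (((1 - ρ + a : ℤ) : ℝ) - 1) ^ 2 ≤ 8000000 / (ρ : ℝ) ^ 2 := by
    push_cast
    have e : ((1 : ℝ) - ρ + a - 1) ^ 2 = ((ρ : ℝ) - a) ^ 2 := by ring
    rw [e]
    have h5 : (ρ : ℝ) / 2 ≤ ρ - a := by linarith
    have h6 : ((ρ : ℝ) / 2) ^ 2 ≤ (ρ - a) ^ 2 := pow_le_pow_left₀ (by linarith) h5 2
    have h7 : (0 : ℝ) < ((ρ : ℝ) / 2) ^ 2 := by positivity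
    calc 2000000 / ((ρ : ℝ) - a) ^ 2 ≤ 2000000 / ((ρ : ℝ) / 2) ^ 2 := by gcongr
      _ = 8000000 / (ρ : ℝ) ^ 2 := by field_simp; norm_num
  have b3 : 2000000 / ((ρ + 1 + a : ℤ) : ℝ) ^ 2 ≤ 2000000 / (ρ : ℝ) ^ 2 := by
    push_cast
    have h5 : (ρ : ℝ) ≤ ρ + 1 + a := by linarith
    gcongr
  unfold SX
  rw [e1]
  have e : ∑ k ∈ Finset.Ico (1 - ρ + a) (ρ + 1 + a), CV Apl (k, v) -
      (1 / Real.pi) * (GX (ρ + 1) v - GX (1 - ρ) v) =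
      (∑ k ∈ Finset.Ico (1 - ρ + a) (ρ + 1 + a), CV Apl (k, v) -
        (PX (1 - ρ + a) v - PX (ρ + 1 + a) v)) +
      (PX (1 - ρ + a) v + (1 / Real.pi) * GX (1 - ρ) v) -
      (PX (ρ + 1 + a) v + (1 / Real.pi) * GX (ρ + 1) v) := by ring
  rw [e]
  refine (abs_sub _ _).trans ((add_le_add ((abs_add_le _ _).trans
    (add_le_add h1 (h2.trans s2))) (h3.trans s3)).trans ?_)
  have hp : (0 : ℝ) < (ρ : ℝ) ^ 2 := by positivity
  have e9 : (13000000 : ℝ) / (ρ : ℝ) ^ 2 = 2000000 / (ρ : ℝ) ^ 2 + 8000000 / (ρ : ℝ) ^ 2 +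
      2000000 / (ρ : ℝ) ^ 2 + 100 / (ρ : ℝ) ^ 2 + 100 / (ρ : ℝ) ^ 2 + 999800 / (ρ : ℝ) ^ 2 := by ring
  have e10 : (0 : ℝ) ≤ 999800 / (ρ : ℝ) ^ 2 := by positivity
  linarith

theorem SX_left {ρ a v : ℤ} (hρ : 2 ≤ ρ) (ha : |a| ≤ 1) :
    |SX ρ (-ρ + a) v - (1 / Real.pi) * (GX (-ρ) v - GX (-3 * ρ) v)| ≤
      13000000 / (ρ : ℝ) ^ 2 := by
  have hρR : (2 : ℝ) ≤ ρ := by exact_mod_cast hρ
  have ha' := abs_le.1 ha
  have e1 : -ρ + a - 2 * ρ = -3 * ρ + a := by ring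
  have h1 := row_part v (a := -3 * ρ + a) (b := -ρ + a) (by omega)
  have h1' := tail_left v (a := -3 * ρ + a) (b := -ρ + a) (by omega) (by omega)
  have h2 := PX_GX (-3 * ρ) v a ha
  have h3 := PX_GX (-ρ) v a ha
  have s2 := le_sz_left (ρ := ρ) (p := -3 * ρ) (q := v) (by omega)
    (by have := neg_abs_le (-3 * ρ); omega)
  have s3 := le_sz_left (ρ := ρ) (p := -ρ) (q := v) (by omega)
    (by have := neg_abs_le (-ρ); omega)
  have haR := abs_le.1 (show |(a : ℝ)| ≤ 1 by exact_mod_cast ha)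
  have b2 : 2000000 / (((-ρ + a : ℤ) : ℝ) - 1) ^ 2 ≤ 2000000 / (ρ : ℝ) ^ 2 := by
    push_cast
    have e : (-(ρ : ℝ) + a - 1) ^ 2 = ((ρ : ℝ) + 1 - a) ^ 2 := by ring
    rw [e]
    have h5 : (ρ : ℝ) ≤ ρ + 1 - a := by linarith
    gcongr
  unfold SX
  rw [e1]
  have e : ∑ k ∈ Finset.Ico (-3 * ρ + a) (-ρ + a), CV Apl (k, v) -
      (1 / Real.pi) * (GX (-ρ) v - GX (-3 * ρ) v) =
      (∑ k ∈ Finset.Ico (-3 * ρ + a) (-ρ + a), CV Apl (k, v) -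
        (PX (-3 * ρ + a) v - PX (-ρ + a) v)) +
      (PX (-3 * ρ + a) v + (1 / Real.pi) * GX (-3 * ρ) v) -
      (PX (-ρ + a) v + (1 / Real.pi) * GX (-ρ) v) := by ring
  rw [e]
  refine (abs_sub _ _).trans ((add_le_add ((abs_add_le _ _).trans
    (add_le_add (h1.trans (h1'.trans b2)) (h2.trans s2))) (h3.trans s3)).trans ?_)
  have hp : (0 : ℝ) < (ρ : ℝ) ^ 2 := by positivity
  have e9 : (13000000 : ℝ) / (ρ : ℝ) ^ 2 = 2000000 / (ρ : ℝ) ^ 2 + 100 / (ρ : ℝ) ^ 2 +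
    100 / (ρ : ℝ) ^ 2 + 10999800 / (ρ : ℝ) ^ 2 := by ring
  have e10 : (0 : ℝ) ≤ 10999800 / (ρ : ℝ) ^ 2 := by positivity
  linarith

theorem SY_gen {ρ a u q : ℤ} (hρ : 2 ≤ ρ) (ha : |a| ≤ 1) (hq : ρ ≤ 1 + |q + a|) (hq' : ρ ≤ 1 + |q|) :
    |SY ρ u (q + a) + (1 / Real.pi) * (GY u q - GY (u - 2 * ρ) q)| ≤
      13000000 / (ρ : ℝ) ^ 2 := by
  have hρR : (2 : ℝ) ≤ ρ := by exact_mod_cast hρ
  have h1 := row_part_T (q + a) (a := u - 2 * ρ) (b := u) (by omega)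
  have h2 := PY_GY (u - 2 * ρ) q a ha
  have h3 := PY_GY u q a ha
  have s2 := le_sz_right (ρ := ρ) (p := u - 2 * ρ) (q := q) (by omega) hq'
  have s3 := le_sz_right (ρ := ρ) (p := u) (q := q) (by omega) hq'
  have b : ∑ k ∈ Finset.Ico (u - 2 * ρ) u, 2000000 / sz k (q + a) ^ 3 ≤ 4000000 / (ρ : ℝ) ^ 2 := by
    have c : ∀ k ∈ Finset.Ico (u - 2 * ρ) u, 2000000 / sz k (q + a) ^ 3 ≤ 2000000 / (ρ : ℝ) ^ 3 := by
      intro k _
      have h1 : (ρ : ℝ) ≤ 1 + |((q + a : ℤ) : ℝ)| := by exact_mod_cast hq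
      have h2 : (ρ : ℝ) ≤ sz k (q + a) := by
        unfold sz; have := abs_nonneg (k : ℝ); linarith
      gcongr
    refine (Finset.sum_le_sum c).trans ?_
    rw [Finset.sum_const, nsmul_eq_mul, Int.card_Ico]
    have hc : (((u - (u - 2 * ρ)).toNat : ℕ) : ℝ) = 2 * ρ := by
      have : ((u - (u - 2 * ρ)).toNat : ℤ) = 2 * ρ := by omega
      exact_mod_cast this
    rw [hc]
    apply le_of_eq
    field_simp
    norm_num
  unfold SY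
  have e : ∑ k ∈ Finset.Ico (u - 2 * ρ) u, TT Apl (k, q + a) +
      (1 / Real.pi) * (GY u q - GY (u - 2 * ρ) q) =
      (∑ k ∈ Finset.Ico (u - 2 * ρ) u, TT Apl (k, q + a) -
        (PY (u - 2 * ρ) (q + a) - PY u (q + a))) +
      (PY (u - 2 * ρ) (q + a) - (1 / Real.pi) * GY (u - 2 * ρ) q) -
      (PY u (q + a) - (1 / Real.pi) * GY u q) := by ring
  rw [e]
  refine (abs_sub _ _).trans ((add_le_add ((abs_add_le _ _).trans
    (add_le_add (h1.trans b) (h2.trans s2))) (h3.trans s3)).trans ?_)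
  have hp : (0 : ℝ) < (ρ : ℝ) ^ 2 := by positivity
  have e9 : (13000000 : ℝ) / (ρ : ℝ) ^ 2 = 4000000 / (ρ : ℝ) ^ 2 + 100 / (ρ : ℝ) ^ 2 +
    100 / (ρ : ℝ) ^ 2 + 8999800 / (ρ : ℝ) ^ 2 := by ring
  have e10 : (0 : ℝ) ≤ 8999800 / (ρ : ℝ) ^ 2 := by positivity
  linarith

/-- weighted combination of three terms -/
theorem three_comb {s1 s2 s3 t E : ℝ} (h1 : |s1 - t| ≤ E) (h2 : |s2 - t| ≤ E) (h3 : |s3 - t| ≤ E) :
    |s1 + 2 * s2 + s3 - 4 * t| ≤ 4 * E := by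
  rw [abs_le] at *
  constructor <;> linarith

theorem lin1 (S : Finset ℤ) (f g1 g2 : ℤ → ℝ) (c : ℝ) :
    ∑ v ∈ S, (f v - c * (g1 v - g2 v)) = ∑ v ∈ S, f v - c * (∑ v ∈ S, g1 v - ∑ v ∈ S, g2 v) := by
  rw [Finset.sum_sub_distrib, ← Finset.mul_sum, Finset.sum_sub_distrib]

theorem lin2 (S : Finset ℤ) (f g1 g2 : ℤ → ℝ) (c : ℝ) :
    ∑ v ∈ S, (f v + c * (g1 v - g2 v)) = ∑ v ∈ S, f v + c * (∑ v ∈ S, g1 v - ∑ v ∈ S, g2 v) := by
  rw [Finset.sum_add_distrib, ← Finset.mul_sum, Finset.sum_sub_distrib]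

/-- the core sum in terms of displacements -/
noncomputable def core (ρ : ℤ) : ℝ :=
  - ∑ v ∈ Finset.Icc (-ρ) ρ, (SX ρ (ρ + 2) v + 2 * SX ρ (ρ + 1) v + SX ρ ρ v
      - SX ρ (-ρ + 1) v - 2 * SX ρ (-ρ) v - SX ρ (-ρ - 1) v) +
    ∑ u ∈ Finset.Icc (-ρ) ρ, (SY ρ u (ρ + 2) + 2 * SY ρ u (ρ + 1) + SY ρ u ρ
      - SY ρ u (-ρ + 1) - 2 * SY ρ u (-ρ) - SY ρ u (-ρ - 1))

theorem core_asymp {ρ : ℤ} (hρ : 2 ≤ ρ) : |core ρ + 4 / Real.pi| ≤ 1000000000 / (ρ : ℝ) := by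
  have hρR : (2 : ℝ) ≤ ρ := by exact_mod_cast hρ
  set E : ℝ := 13000000 / (ρ : ℝ) ^ 2 with hE
  have hX : ∀ v ∈ Finset.Icc (-ρ) ρ,
      |(SX ρ (ρ + 2) v + 2 * SX ρ (ρ + 1) v + SX ρ ρ v
      - SX ρ (-ρ + 1) v - 2 * SX ρ (-ρ) v - SX ρ (-ρ - 1) v) -
      (4 / Real.pi) * ((GX (ρ + 1) v - GX (-ρ) v) - (GX (1 - ρ) v - GX (-3 * ρ) v))| ≤ 8 * E := by
    intro v hv
    rw [Finset.mem_Icc] at hv
    have hv' : |v| ≤ ρ := abs_le.2 hv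
    have a1 := SX_right (ρ := ρ) (a := 1) (v := v) hρ (by norm_num) hv'
    have a2 := SX_right (ρ := ρ) (a := 0) (v := v) hρ (by norm_num) hv'
    have a3 := SX_right (ρ := ρ) (a := -1) (v := v) hρ (by norm_num) hv'
    have b1 := SX_left (ρ := ρ) (a := 1) (v := v) hρ (by norm_num)
    have b2 := SX_left (ρ := ρ) (a := 0) (v := v) hρ (by norm_num)
    have b3 := SX_left (ρ := ρ) (a := -1) (v := v) hρ (by norm_num)
    rw [show ρ + 1 + 1 = ρ + 2 by ring] at a1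
    rw [add_zero] at a2 b2
    rw [show ρ + 1 + -1 = ρ by ring] at a3
    rw [show -ρ + -1 = -ρ - 1 by ring] at b3
    have c1 := three_comb a1 a2 a3
    have c2 := three_comb b1 b2 b3
    rw [← hE] at c1 c2
    have e : (SX ρ (ρ + 2) v + 2 * SX ρ (ρ + 1) v + SX ρ ρ v
      - SX ρ (-ρ + 1) v - 2 * SX ρ (-ρ) v - SX ρ (-ρ - 1) v) -
      (4 / Real.pi) * ((GX (ρ + 1) v - GX (-ρ) v) - (GX (1 - ρ) v - GX (-3 * ρ) v)) =
      (SX ρ (ρ + 2) v + 2 * SX ρ (ρ + 1) v + SX ρ ρ v -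
        4 * (1 / Real.pi * (GX (ρ + 1) v - GX (1 - ρ) v))) -
      (SX ρ (-ρ + 1) v + 2 * SX ρ (-ρ) v + SX ρ (-ρ - 1) v -
        4 * (1 / Real.pi * (GX (-ρ) v - GX (-3 * ρ) v))) := by ring
    rw [e]
    refine (abs_sub _ _).trans ?_
    linarith
  have hY : ∀ u ∈ Finset.Icc (-ρ) ρ,
      |(SY ρ u (ρ + 2) + 2 * SY ρ u (ρ + 1) + SY ρ u ρ
      - SY ρ u (-ρ + 1) - 2 * SY ρ u (-ρ) - SY ρ u (-ρ - 1)) +
      (4 / Real.pi) * ((GY u (ρ + 1) - GY u (-ρ)) -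
        (GY (u - 2 * ρ) (ρ + 1) - GY (u - 2 * ρ) (-ρ)))| ≤ 8 * E := by
    intro u _
    have p1 : ∀ a : ℤ, |a| ≤ 1 → ρ ≤ 1 + |ρ + 1 + a| := by
      intro a ha
      have := abs_le.1 ha
      have := le_abs_self (ρ + 1 + a)
      omega
    have p2 : ∀ a : ℤ, |a| ≤ 1 → ρ ≤ 1 + |-ρ + a| := by
      intro a ha
      have := abs_le.1 ha
      have := neg_abs_le (-ρ + a)
      omega
    have p3 : ρ ≤ 1 + |ρ + 1| := by have := le_abs_self (ρ + 1); omega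
    have p4 : ρ ≤ 1 + |-ρ| := by have := neg_abs_le (-ρ); omega
    have a1 := SY_gen (ρ := ρ) (a := 1) (u := u) (q := ρ + 1) hρ (by norm_num) (p1 _ (by norm_num)) p3
    have a2 := SY_gen (ρ := ρ) (a := 0) (u := u) (q := ρ + 1) hρ (by norm_num) (p1 _ (by norm_num)) p3
    have a3 := SY_gen (ρ := ρ) (a := -1) (u := u) (q := ρ + 1) hρ (by norm_num) (p1 _ (by norm_num)) p3
    have b1 := SY_gen (ρ := ρ) (a := 1) (u := u) (q := -ρ) hρ (by norm_num) (p2 _ (by norm_num)) p4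
    have b2 := SY_gen (ρ := ρ) (a := 0) (u := u) (q := -ρ) hρ (by norm_num) (p2 _ (by norm_num)) p4
    have b3 := SY_gen (ρ := ρ) (a := -1) (u := u) (q := -ρ) hρ (by norm_num) (p2 _ (by norm_num)) p4
    rw [show ρ + 1 + 1 = ρ + 2 by ring] at a1
    rw [add_zero] at a2 b2
    rw [show ρ + 1 + -1 = ρ by ring] at a3
    rw [show -ρ + -1 = -ρ - 1 by ring] at b3
    rw [← sub_neg_eq_add] at a1 a2 a3 b1 b2 b3
    have c1 := three_comb a1 a2 a3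
    have c2 := three_comb b1 b2 b3
    rw [← hE] at c1 c2
    have e : (SY ρ u (ρ + 2) + 2 * SY ρ u (ρ + 1) + SY ρ u ρ
      - SY ρ u (-ρ + 1) - 2 * SY ρ u (-ρ) - SY ρ u (-ρ - 1)) +
      (4 / Real.pi) * ((GY u (ρ + 1) - GY u (-ρ)) -
        (GY (u - 2 * ρ) (ρ + 1) - GY (u - 2 * ρ) (-ρ))) =
      (SY ρ u (ρ + 2) + 2 * SY ρ u (ρ + 1) + SY ρ u ρ -
        4 * -(1 / Real.pi * (GY u (ρ + 1) - GY (u - 2 * ρ) (ρ + 1)))) -
      (SY ρ u (-ρ + 1) + 2 * SY ρ u (-ρ) + SY ρ u (-ρ - 1) -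
        4 * -(1 / Real.pi * (GY u (-ρ) - GY (u - 2 * ρ) (-ρ)))) := by ring
    rw [e]
    refine (abs_sub _ _).trans ?_
    linarith
  have f0 := flux_zero (ρ := ρ) (by omega)
  have f1 := flux_far (ρ := ρ) (by omega)
  have hcard : ((Finset.Icc (-ρ) ρ).card : ℝ) ≤ 3 * ρ := by
    rw [Int.card_Icc]
    have : ((ρ + 1 - -ρ).toNat : ℤ) ≤ 3 * ρ := by omega
    exact_mod_cast this
  have sumX : |∑ v ∈ Finset.Icc (-ρ) ρ, ((SX ρ (ρ + 2) v + 2 * SX ρ (ρ + 1) v + SX ρ ρ v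
      - SX ρ (-ρ + 1) v - 2 * SX ρ (-ρ) v - SX ρ (-ρ - 1) v) -
      (4 / Real.pi) * ((GX (ρ + 1) v - GX (-ρ) v) - (GX (1 - ρ) v - GX (-3 * ρ) v)))| ≤
      (3 * ρ) * (8 * E) := by
    refine (Finset.abs_sum_le_sum_abs _ _).trans ((Finset.sum_le_sum hX).trans ?_)
    rw [Finset.sum_const, nsmul_eq_mul]
    gcongr
  have sumY : |∑ u ∈ Finset.Icc (-ρ) ρ, ((SY ρ u (ρ + 2) + 2 * SY ρ u (ρ + 1) + SY ρ u ρ
      - SY ρ u (-ρ + 1) - 2 * SY ρ u (-ρ) - SY ρ u (-ρ - 1)) +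
      (4 / Real.pi) * ((GY u (ρ + 1) - GY u (-ρ)) -
        (GY (u - 2 * ρ) (ρ + 1) - GY (u - 2 * ρ) (-ρ))))| ≤
      (3 * ρ) * (8 * E) := by
    refine (Finset.abs_sum_le_sum_abs _ _).trans ((Finset.sum_le_sum hY).trans ?_)
    rw [Finset.sum_const, nsmul_eq_mul]
    gcongr
  have hmain : core ρ + 4 / Real.pi =
      -(∑ v ∈ Finset.Icc (-ρ) ρ, ((SX ρ (ρ + 2) v + 2 * SX ρ (ρ + 1) v + SX ρ ρ v
      - SX ρ (-ρ + 1) v - 2 * SX ρ (-ρ) v - SX ρ (-ρ - 1) v) -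
      (4 / Real.pi) * ((GX (ρ + 1) v - GX (-ρ) v) - (GX (1 - ρ) v - GX (-3 * ρ) v)))) +
      ∑ u ∈ Finset.Icc (-ρ) ρ, ((SY ρ u (ρ + 2) + 2 * SY ρ u (ρ + 1) + SY ρ u ρ
      - SY ρ u (-ρ + 1) - 2 * SY ρ u (-ρ) - SY ρ u (-ρ - 1)) +
      (4 / Real.pi) * ((GY u (ρ + 1) - GY u (-ρ)) -
        (GY (u - 2 * ρ) (ρ + 1) - GY (u - 2 * ρ) (-ρ)))) := by
    unfold core
    rw [lin1, lin2]
    linear_combination (-(4 / Real.pi)) * f0 + (4 / Real.pi) * f1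
  rw [hmain]
  refine (abs_add_le _ _).trans ?_
  rw [abs_neg]
  refine (add_le_add sumX sumY).trans ?_
  rw [hE]
  have : 3 * (ρ : ℝ) * (8 * (13000000 / (ρ : ℝ) ^ 2)) + 3 * (ρ : ℝ) * (8 * (13000000 / (ρ : ℝ) ^ 2)) =
      624000000 / (ρ : ℝ) := by field_simp; norm_num
  rw [this]
  gcongr
  norm_num

end Vale.Agent.P155.B1b
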