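import Vale.Agent.P155.B1b.PlaneMain

/-!
# P155, block B1b: the plane profile is odd and unique
-/

namespace Vale.Agent.P155.B1b

open Real intervalIntegral MeasureTheory Finset

/-! ## oddness -/

theorem Is_neg (k : ℤ) (y : ℝ) : Is (-k) y = - Is k y := by
  unfold Is
  rw [← intervalIntegral.integral_neg]
  apply intervalIntegral.integral_congr
  intro t _
  simp only
  have e : ((-k : ℤ) : ℝ) * t = -((k : ℝ) * t) := by push_cast; ring
  rw [e, Real.sin_neg]
  ring

theorem Ic_neg (k : ℤ) (y : ℝ) : Ic (-k) y = Ic k y := by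
  unfold Ic
  apply intervalIntegral.integral_congr
  intro t _
  simp only
  have e : ((-k : ℤ) : ℝ) * t = -((k : ℝ) * t) := by push_cast; ring
  rw [e, Real.cos_neg]

theorem Apl_neg' (z : Pt) : Apl (-z) = - Apl z := by
  obtain ⟨x, y⟩ := z
  have e : (-(x, y) : Pt) = (-x, -y) := rfl
  rw [e]
  have ey : |((-y : ℤ) : ℝ)| = |(y : ℝ)| := by push_cast; exact abs_neg _
  by_cases hx : Odd x
  · have hx' : Odd (-x) := hx.neg
    rw [Apl_odd hx, Apl_odd hx', Is_neg, ey]
    ring
  · have hx1 : Even x := Int.not_odd_iff_even.1 hx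
    have hx' : Even (-x) := hx1.neg
    rw [Apl_even hx1, Apl_even hx', Ic_neg, ey, Int.sign_neg]
    push_cast
    ring

/-- the plane profile is odd -/
theorem Apl_neg {z : Pt} (_hz : Odd (z.1 + z.2)) : Apl (-z) = - Apl z := Apl_neg' z

/-! ## uniqueness -/

/-- the first order relations of any plane profile -/
theorem IsPlane.rel {A : Pt → ℝ} (hA : IsPlane A) {x y : ℤ} (h : Even (x + y)) :
    A (x + 1, y) - A (x - 1, y) + sg y * (A (x, y + 1) - A (x, y - 1)) =
      if x = 0 ∧ y = 0 then 1 else 0 := by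
  have hw : White ((1 : ℤ), (0 : ℤ)) := by unfold White; simp
  have hw' : White ((1 + x : ℤ), (y : ℤ)) := by
    unfold White
    rw [Int.odd_iff]
    rw [Int.even_iff] at h
    simp only
    omega
  have h1 := hA.left _ _ hw hw'
  rw [row_sum] at h1
  have hK : ∀ b : Pt, Kp A b ((1 : ℤ), (0 : ℤ)) = A (b.1 - 1, b.2) := by
    intro b
    unfold Kp
    have h0 : sg ((1 : ℤ), (0 : ℤ)).2 = 1 := by simp [sg]
    rw [h0]
    simp only [ite_self, one_mul]
    congr 1
    ext <;> simp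
  rw [hK, hK, hK, hK] at h1
  simp only at h1
  have e1 : 1 + x + 1 - 1 = x + 1 := by ring
  have e2 : 1 + x - 1 - 1 = x - 1 := by ring
  have e3 : 1 + x - 1 = x := by ring
  rw [e1, e2, e3] at h1
  rw [h1]
  congr 1
  simp

/-- discrete maximum principle for functions harmonic for the steps `±2` -/
theorem le_zero_of_harm {D : Pt → ℝ} {C : ℝ}
    (hh : ∀ a b : ℤ, Odd (a + b) →
      D (a + 2, b) + D (a - 2, b) + D (a, b + 2) + D (a, b - 2) = 4 * D (a, b))
    (hC : ∀ z : Pt, Odd (z.1 + z.2) → |D z| ≤ C / nsq z) (z : Pt) (hz : Odd (z.1 + z.2)) :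
    D z ≤ 0 := by
  classical
  by_contra hcon
  push Not at hcon
  -- decay
  have hdec : ∀ δ : ℝ, 0 < δ → ∃ R : ℕ, ∀ u : Pt, Odd (u.1 + u.2) →
      ((R : ℤ) ≤ |u.1| ∨ (R : ℤ) ≤ |u.2|) → D u < δ := by
    intro δ hδ
    obtain ⟨R, hR⟩ := exists_nat_gt (|C| / δ + 1)
    refine ⟨R, fun u hu h => ?_⟩
    have hn := nsq_pos hu
    have hR1 : (1 : ℝ) ≤ R := by
      have : 0 ≤ |C| / δ := by positivity
      linarith
    have hRn : (R : ℝ) ≤ nsq u := by
      unfold nsq
      rcases h with h | h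
      · have h' : (R : ℝ) ≤ |(u.1 : ℝ)| := by exact_mod_cast h
        have : (R : ℝ) ^ 2 ≤ (u.1 : ℝ) ^ 2 := by
          rw [← sq_abs (u.1 : ℝ)]
          exact pow_le_pow_left₀ (by linarith) h' 2
        nlinarith [sq_nonneg (u.2 : ℝ)]
      · have h' : (R : ℝ) ≤ |(u.2 : ℝ)| := by exact_mod_cast h
        have : (R : ℝ) ^ 2 ≤ (u.2 : ℝ) ^ 2 := by
          rw [← sq_abs (u.2 : ℝ)]
          exact pow_le_pow_left₀ (by linarith) h' 2
        nlinarith [sq_nonneg (u.1 : ℝ)]
    calc D u ≤ |D u| := le_abs_self _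
      _ ≤ C / nsq u := hC u hu
      _ ≤ |C| / nsq u := div_le_div_of_nonneg_right (le_abs_self C) hn.le
      _ < δ := by
        rw [div_lt_iff₀ hn]
        have h2 : |C| / δ < nsq u := by linarith
        rw [div_lt_iff₀ hδ] at h2
        linarith
  obtain ⟨R, hR⟩ := hdec (D z) hcon
  -- a maximum
  let F : Finset Pt := (Finset.Icc (-(R : ℤ)) R ×ˢ Finset.Icc (-(R : ℤ)) R).filter
    (fun u => Odd (u.1 + u.2))
  have hmem : ∀ u : Pt, Odd (u.1 + u.2) → u ∉ F → D u < D z := by
    intro u hu hF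
    apply hR u hu
    by_contra hcc
    push Not at hcc
    apply hF
    have h1 := abs_lt.1 hcc.1
    have h2 := abs_lt.1 hcc.2
    simp only [F, Finset.mem_filter, Finset.mem_product, Finset.mem_Icc]
    exact ⟨⟨⟨h1.1.le, h1.2.le⟩, ⟨h2.1.le, h2.2.le⟩⟩, hu⟩
  have hzF : z ∈ F := by
    by_contra h
    exact lt_irrefl _ (hmem z hz h)
  obtain ⟨m, hmF, hm⟩ := Finset.exists_max_image F D ⟨z, hzF⟩
  have hmo : Odd (m.1 + m.2) := (Finset.mem_filter.1 hmF).2
  have hmax : ∀ u : Pt, Odd (u.1 + u.2) → D u ≤ D m := by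
    intro u hu
    by_cases h : u ∈ F
    · exact hm u h
    · exact (hmem u hu h).le.trans (hm z hzF)
  have hpos : 0 < D m := lt_of_lt_of_le hcon (hm z hzF)
  -- propagation
  have hprop : ∀ n : ℕ, D (m.1 + 2 * n, m.2) = D m := by
    intro n
    induction n with
    | zero => simp
    | succ n ih =>
      have ho : Odd ((m.1 + 2 * (n : ℤ)) + m.2) := by
        rw [Int.odd_iff] at hmo ⊢; omega
      have h1 := hh (m.1 + 2 * (n : ℤ)) m.2 ho
      have h2 := hmax (m.1 + 2 * (n : ℤ) + 2, m.2) (by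
        rw [Int.odd_iff] at ho ⊢; simp only; omega)
      have h3 := hmax (m.1 + 2 * (n : ℤ) - 2, m.2) (by
        rw [Int.odd_iff] at ho ⊢; simp only; omega)
      have h4 := hmax (m.1 + 2 * (n : ℤ), m.2 + 2) (by
        rw [Int.odd_iff] at ho ⊢; simp only; omega)
      have h5 := hmax (m.1 + 2 * (n : ℤ), m.2 - 2) (by
        rw [Int.odd_iff] at ho ⊢; simp only; omega)
      have e : (m.1 + 2 * ((n + 1 : ℕ) : ℤ), m.2) = (m.1 + 2 * (n : ℤ) + 2, m.2) := by
        congr 1; push_cast; ring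
      rw [e]
      linarith
  obtain ⟨R', hR'⟩ := hdec (D m) hpos
  have hbig : (R' : ℤ) ≤ |m.1 + 2 * ((R' + m.1.natAbs : ℕ) : ℤ)| := by
    have : (R' : ℤ) ≤ m.1 + 2 * ((R' + m.1.natAbs : ℕ) : ℤ) := by
      push_cast
      have := neg_abs_le m.1
      have h0 := abs_nonneg m.1
      have h1 : (0 : ℤ) ≤ R' := Int.natCast_nonneg R'
      linarith
    exact this.trans (le_abs_self _)
  have h6 := hR' (m.1 + 2 * ((R' + m.1.natAbs : ℕ) : ℤ), m.2) (by
    rw [Int.odd_iff] at hmo ⊢; simp only; omega) (Or.inl hbig)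
  rw [hprop] at h6
  exact lt_irrefl _ h6

/-- every plane profile is `Apl` (on odd points) -/
theorem IsPlane.eq_Apl {A : Pt → ℝ} (hA : IsPlane A) {z : Pt} (hz : Odd (z.1 + z.2)) :
    A z = Apl z := by
  obtain ⟨C, hC⟩ := hA.asymp
  have hrel : ∀ x y : ℤ, Even (x + y) →
      (A (x + 1, y) - Apl (x + 1, y)) - (A (x - 1, y) - Apl (x - 1, y)) +
        sg y * ((A (x, y + 1) - Apl (x, y + 1)) - (A (x, y - 1) - Apl (x, y - 1))) = 0 := by
    intro x y h
    have h1 := IsPlane.rel hA h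
    have h2 := IsPlane.rel isPlane_Apl h
    linear_combination h1 - h2
  have hharm : ∀ a b : ℤ, Odd (a + b) →
      (A (a + 2, b) - Apl (a + 2, b)) + (A (a - 2, b) - Apl (a - 2, b)) +
        (A (a, b + 2) - Apl (a, b + 2)) + (A (a, b - 2) - Apl (a, b - 2)) =
      4 * (A (a, b) - Apl (a, b)) := by
    intro a b h
    rw [Int.odd_iff] at h
    have r1 := hrel (a + 1) b (by rw [Int.even_iff]; omega)
    have r2 := hrel (a - 1) b (by rw [Int.even_iff]; omega)
    have r3 := hrel a (b + 1) (by rw [Int.even_iff]; omega)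
    have r4 := hrel a (b - 1) (by rw [Int.even_iff]; omega)
    have e1 : a + 1 + 1 = a + 2 := by ring
    have e2 : a + 1 - 1 = a := by ring
    have e3 : a - 1 + 1 = a := by ring
    have e4 : a - 1 - 1 = a - 2 := by ring
    have e5 : b + 1 + 1 = b + 2 := by ring
    have e6 : b + 1 - 1 = b := by ring
    have e7 : b - 1 + 1 = b := by ring
    have e8 : b - 1 - 1 = b - 2 := by ring
    rw [e1, e2] at r1
    rw [e3, e4] at r2
    rw [e5, e6, sg_add_one] at r3
    rw [e7, e8, sg_sub_one] at r4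
    have hs := sg_sq b
    linear_combination r1 - r2 - sg b * (r3 - r4) +
      (-((A (a, b + 2) - Apl (a, b + 2)) - (A (a, b) - Apl (a, b))) +
        ((A (a, b) - Apl (a, b)) - (A (a, b - 2) - Apl (a, b - 2)))) * hs
  have hb : ∀ z : Pt, Odd (z.1 + z.2) → |A z - Apl z| ≤ (C + 8) / nsq z := by
    intro z hz
    have h1 := hC z hz
    have h2 := Apl_asymp z hz
    rw [add_div]
    have e : A z - Apl z = (A z - Alead z) - (Apl z - Alead z) := by ring
    rw [e]
    exact (abs_sub _ _).trans (add_le_add h1 h2)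
  have h1 := le_zero_of_harm (D := fun z => A z - Apl z) hharm hb z hz
  have h2 := le_zero_of_harm (D := fun z => -(A z - Apl z)) (C := C + 8)
    (fun a b h => by have := hharm a b h; linarith)
    (fun z hz => by rw [abs_neg]; exact hb z hz) z hz
  linarith

theorem Kp_eq_Apl {A : Pt → ℝ} (hA : IsPlane A) {b w : Pt} (hb : Black b) (hw : White w) :
    Kp A b w = Kp Apl b w := by
  unfold Kp
  have h : Odd ((b - w).1 + (b - w).2) := by
    unfold Black at hb
    unfold White at hw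
    rw [Int.even_iff] at hb
    rw [Int.odd_iff] at hw ⊢
    simp only [Prod.fst_sub, Prod.snd_sub]
    omega
  rw [IsPlane.eq_Apl hA h]

end Vale.Agent.P155.B1b
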