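import Vale.Agent.P155.B1b.Disp
import Vale.Agent.P155.B1b.Flux
import Vale.Agent.P155.B1b.Uniq

/-!
# P155: the plane constant `E_const`
-/

namespace Vale.Agent.P155.B1b

open E Finset

theorem vB_black (v : Pt) : Black (vB v) := by
  unfold vB
  split_ifs with h
  · have h' : Odd (v.1 + v.2) := h
    unfold Black
    simp only
    rw [← add_assoc]
    exact h'.add_one
  · exact Int.not_odd_iff_even.1 h

theorem vW_white (v : Pt) : White (vW v) := by
  unfold vW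
  split_ifs with h
  · exact h
  · have h' : Even (v.1 + v.2) := Int.not_odd_iff_even.1 h
    unfold White
    simp only
    rw [← add_assoc]
    exact h'.add_one

theorem hB_black (v : Pt) : Black (hB v) := by
  unfold hB
  split_ifs with h
  · have h' : Odd (v.1 + v.2) := h
    unfold Black
    simp only
    rw [add_right_comm]
    exact h'.add_one
  · exact Int.not_odd_iff_even.1 h

theorem hW_white (v : Pt) : White (hW v) := by
  unfold hW
  split_ifs with h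
  · exact h
  · have h' : Even (v.1 + v.2) := Int.not_odd_iff_even.1 h
    unfold White
    simp only
    rw [add_right_comm]
    exact h'.add_one

theorem cXX_plane {A : Pt → ℝ} (hA : IsPlane A) (v v' : Pt) :
    cXX (Kp A) v v' = CV Apl (v - v') := by
  have h : cXX (Kp A) v v' = cXX (Kp Apl) v v' := by
    unfold cXX eCov
    rw [Kp_eq_Apl hA (vB_black v) (vW_white v), Kp_eq_Apl hA (vB_black v) (vW_white v'),
      Kp_eq_Apl hA (vB_black v') (vW_white v)]
  rw [h]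
  exact cXX_eq (fun z hz => Apl_neg hz) v v'

theorem cYX_plane {A : Pt → ℝ} (hA : IsPlane A) (v v' : Pt) :
    cYX (Kp A) v v' = - TT Apl (v - v') := by
  have h : cYX (Kp A) v v' = cYX (Kp Apl) v v' := by
    unfold cYX eCov
    rw [Kp_eq_Apl hA (hB_black v) (hW_white v), Kp_eq_Apl hA (hB_black v) (vW_white v'),
      Kp_eq_Apl hA (vB_black v') (hW_white v)]
  rw [h]
  exact cYX_eq (fun z hz => Apl_neg hz) v v'

theorem reindex (f : ℤ → ℝ) (p ρ : ℤ) :
    ∑ j ∈ Finset.Icc 1 (2 * ρ), f (p - j) = ∑ k ∈ Finset.Ico (p - 2 * ρ) p, f k := by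
  apply Finset.sum_nbij' (fun j => p - j) (fun k => p - k)
  · intro j hj; rw [Finset.mem_Icc] at hj; rw [Finset.mem_Ico]; omega
  · intro k hk; rw [Finset.mem_Ico] at hk; rw [Finset.mem_Icc]; omega
  · intro j _; simp
  · intro k _; simp
  · intro j _; rfl

theorem colX (y : Pt) (ρ v : ℤ) :
    ∑ j ∈ Finset.Icc 1 (2 * ρ),
      (CV Apl ((y.1 + ρ + 2, y.2 + v) - (y.1 + j, y.2)) +
        2 * CV Apl ((y.1 + ρ + 1, y.2 + v) - (y.1 + j, y.2)) +
        CV Apl ((y.1 + ρ, y.2 + v) - (y.1 + j, y.2)) -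
        CV Apl ((y.1 - ρ + 1, y.2 + v) - (y.1 + j, y.2)) -
        2 * CV Apl ((y.1 - ρ, y.2 + v) - (y.1 + j, y.2)) -
        CV Apl ((y.1 - ρ - 1, y.2 + v) - (y.1 + j, y.2))) =
    SX ρ (ρ + 2) v + 2 * SX ρ (ρ + 1) v + SX ρ ρ v
      - SX ρ (-ρ + 1) v - 2 * SX ρ (-ρ) v - SX ρ (-ρ - 1) v := by
  unfold SX
  rw [← reindex (fun k => CV Apl (k, v)), ← reindex (fun k => CV Apl (k, v)),
    ← reindex (fun k => CV Apl (k, v)), ← reindex (fun k => CV Apl (k, v)),
    ← reindex (fun k => CV Apl (k, v)), ← reindex (fun k => CV Apl (k, v)),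
    Finset.mul_sum, Finset.mul_sum, ← Finset.sum_add_distrib, ← Finset.sum_add_distrib,
    ← Finset.sum_sub_distrib, ← Finset.sum_sub_distrib, ← Finset.sum_sub_distrib]
  apply Finset.sum_congr rfl
  intro j _
  have e : ∀ a b : ℤ, b = y.1 + a → ((b, y.2 + v) : Pt) - (y.1 + j, y.2) = (a - j, v) := by
    intro a b h; rw [h]; ext <;> simp
  rw [e (ρ + 2) _ (by ring), e (ρ + 1) _ (by ring), e ρ _ (by ring), e (-ρ + 1) _ (by ring),
    e (-ρ) _ (by ring), e (-ρ - 1) _ (by ring)]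

theorem colY (y : Pt) (ρ u : ℤ) :
    ∑ j ∈ Finset.Icc 1 (2 * ρ),
      (-TT Apl ((y.1 + u, y.2 + ρ + 2) - (y.1 + j, y.2)) +
        2 * -TT Apl ((y.1 + u, y.2 + ρ + 1) - (y.1 + j, y.2)) +
        -TT Apl ((y.1 + u, y.2 + ρ) - (y.1 + j, y.2)) -
        -TT Apl ((y.1 + u, y.2 - ρ + 1) - (y.1 + j, y.2)) -
        2 * -TT Apl ((y.1 + u, y.2 - ρ) - (y.1 + j, y.2)) -
        -TT Apl ((y.1 + u, y.2 - ρ - 1) - (y.1 + j, y.2))) =
    -(SY ρ u (ρ + 2) + 2 * SY ρ u (ρ + 1) + SY ρ u ρ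
      - SY ρ u (-ρ + 1) - 2 * SY ρ u (-ρ) - SY ρ u (-ρ - 1)) := by
  unfold SY
  rw [← reindex (fun k => TT Apl (k, ρ + 2)), ← reindex (fun k => TT Apl (k, ρ + 1)),
    ← reindex (fun k => TT Apl (k, ρ)), ← reindex (fun k => TT Apl (k, -ρ + 1)),
    ← reindex (fun k => TT Apl (k, -ρ)), ← reindex (fun k => TT Apl (k, -ρ - 1)),
    Finset.mul_sum, Finset.mul_sum, ← Finset.sum_add_distrib, ← Finset.sum_add_distrib,
    ← Finset.sum_sub_distrib, ← Finset.sum_sub_distrib, ← Finset.sum_sub_distrib,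
    ← Finset.sum_neg_distrib]
  apply Finset.sum_congr rfl
  intro j _
  have e : ∀ a b : ℤ, b = y.2 + a → ((y.1 + u, b) : Pt) - (y.1 + j, y.2) = (u - j, a) := by
    intro a b h; rw [h]; ext <;> simp
  rw [e (ρ + 2) _ (by ring), e (ρ + 1) _ (by ring), e ρ _ (by ring), e (-ρ + 1) _ (by ring),
    e (-ρ) _ (by ring), e (-ρ - 1) _ (by ring)]
  ring

theorem coreSum_eq {A : Pt → ℝ} (hA : IsPlane A) (y : Pt) (ρ : ℕ) :
    coreSum (Kp A) y ρ = core (ρ : ℤ) := by
  unfold coreSum core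
  simp only [cXX_plane hA, cYX_plane hA]
  rw [Finset.sum_add_distrib, Finset.sum_comm,
    Finset.sum_comm (s := Finset.Icc (1 : ℤ) (2 * ρ)) (t := Finset.Icc (-(ρ : ℤ)) ρ)
      (f := fun j u => (-TT Apl ((y.1 + u, y.2 + ρ + 2) - (y.1 + j, y.2)) +
        2 * -TT Apl ((y.1 + u, y.2 + ρ + 1) - (y.1 + j, y.2)) +
        -TT Apl ((y.1 + u, y.2 + ρ) - (y.1 + j, y.2)) -
        -TT Apl ((y.1 + u, y.2 - ρ + 1) - (y.1 + j, y.2)) -
        2 * -TT Apl ((y.1 + u, y.2 - ρ) - (y.1 + j, y.2)) -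
        -TT Apl ((y.1 + u, y.2 - ρ - 1) - (y.1 + j, y.2))))]
  rw [Finset.sum_congr rfl (fun v _ => colX y ρ v), Finset.sum_congr rfl (fun u _ => colY y ρ u),
    Finset.sum_neg_distrib]
  ring

/-- `E.E_const`: the plane constant. -/
theorem E_const : E.E_const := by
  intro A hA
  refine ⟨max |core 1 + 4 / Real.pi| 1000000000, fun y ρ hρ => ?_⟩
  rw [coreSum_eq hA]
  rcases Nat.lt_or_ge ρ 2 with h | h
  · have : ρ = 1 := by omega
    subst this
    simp only [Nat.cast_one, Real.one_rpow, mul_one]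
    exact le_max_left _ _
  · have h1 := core_asymp (ρ := (ρ : ℤ)) (by exact_mod_cast h)
    have hρR : (1 : ℝ) ≤ ρ := by exact_mod_cast hρ
    have hρ0 : (0 : ℝ) < ρ := by linarith
    have h2 : (1 : ℝ) / ρ ≤ (ρ : ℝ) ^ (-(1 / 2) : ℝ) := by
      have e : (1 : ℝ) / ρ = (ρ : ℝ) ^ (-1 : ℝ) := by
        rw [Real.rpow_neg_one, one_div]
      rw [e]
      apply Real.rpow_le_rpow_of_exponent_le hρR
      norm_num
    calc |core (ρ : ℤ) + 4 / Real.pi| ≤ 1000000000 / ((ρ : ℤ) : ℝ) := h1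
      _ = 1000000000 * (1 / (ρ : ℝ)) := by push_cast; ring
      _ ≤ 1000000000 * (ρ : ℝ) ^ (-(1 / 2) : ℝ) := by gcongr
      _ ≤ _ := by
        gcongr
        exact le_max_right _ _

end Vale.Agent.P155.B1b
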