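import Vale.Agent.P155.B1b.CVdefs
import Vale.Agent.P155.E.Iface

/-!
# P155: the plane covariances of increments depend on the displacement only
-/

namespace Vale.Agent.P155.B1b

open E

theorem sg_even {n : ℤ} (h : Even n) : sg n = 1 := by simp [sg, h]
theorem sg_odd {n : ℤ} (h : Odd n) : sg n = -1 := by
  simp [sg, Int.not_even_iff_odd.2 h]

theorem sg_cases (n : ℤ) : sg n = 1 ∨ sg n = -1 := by
  unfold sg; split_ifs <;> simp

theorem ss_eq (v : Pt) : ss v = sg v.1 * sg v.2 := by
  rw [← sg_add]; rfl

theorem K_v (v : Pt) : K (vW v) (vB v) = sg v.2 := by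
  unfold vW vB
  split_ifs with h
  · exact K_up v
  · have := K_down (v.1, v.2 + 1)
    simp only [add_sub_cancel_right, sg_add_one, neg_neg] at this
    exact this

theorem K_h (v : Pt) : K (hW v) (hB v) = - ss v := by
  unfold hW hB
  split_ifs with h
  · rw [K_right]
    have h' : Odd (v.1 + v.2) := h
    unfold ss
    rw [if_neg (Int.not_even_iff_odd.2 h')]
    norm_num
  · have := K_left (v.1 + 1, v.2)
    simp only [add_sub_cancel_right] at this
    have h' : Even (v.1 + v.2) := Int.not_odd_iff_even.1 h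
    unfold ss
    rw [if_pos h']
    exact this

theorem of_prod_one {x y : ℝ} (hx : x = 1 ∨ x = -1) (h : x * y = 1) : y = x := by
  rcases hx with rfl | rfl <;> linarith

theorem of_prod_neg {x y : ℝ} (hx : x = 1 ∨ x = -1) (h : x * y = -1) : y = -x := by
  rcases hx with rfl | rfl <;> linarith

/-- sign in `Kp` for the white end of a vertical edge -/
theorem sg_vW (v : Pt) : sg (vW v).2 = - sg v.1 := by
  unfold vW
  split_ifs with h
  · have h' : Odd (v.1 + v.2) := h
    have := sg_odd h'
    rw [sg_add] at this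
    exact of_prod_neg (sg_cases v.1) this
  · have h' : Even (v.1 + v.2) := Int.not_odd_iff_even.1 h
    have := sg_even h'
    rw [sg_add] at this
    simp only [sg_add_one]
    rw [of_prod_one (sg_cases v.1) this]

theorem sg_hW (v : Pt) : sg (hW v).2 = sg v.2 := by
  unfold hW
  split_ifs <;> rfl

theorem vW_fst (v : Pt) : (vW v).1 = v.1 := by unfold vW; split_ifs <;> rfl
theorem vB_fst (v : Pt) : (vB v).1 = v.1 := by unfold vB; split_ifs <;> rfl
theorem hW_snd (v : Pt) : (hW v).2 = v.2 := by unfold hW; split_ifs <;> rfl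
theorem hB_snd (v : Pt) : (hB v).2 = v.2 := by unfold hB; split_ifs <;> rfl

variable {A : Pt → ℝ}

theorem prod_vv (hA : ∀ z : Pt, Odd (z.1 + z.2) → A (-z) = - A z) (v v' : Pt) :
    A (vB v - vW v') * A (vB v' - vW v) =
      - (if Even ((v - v').1 + (v - v').2) then
          A ((v - v').1, (v - v').2 + 1) * A ((v - v').1, (v - v').2 - 1)
        else A (v - v') ^ 2) := by
  obtain ⟨a, b⟩ := v
  obtain ⟨c, d⟩ := v'
  unfold vB vW
  simp only [Prod.mk_sub_mk]
  by_cases h1 : White (a, b) <;> by_cases h2 : White (c, d)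
  · have h3 : Even (a - c + (b - d)) := by
      unfold White at h1 h2; rw [Int.odd_iff] at h1 h2; rw [Int.even_iff]; simp only at h1 h2; omega
    rw [if_pos h1, if_pos h2, if_pos h2, if_pos h1, if_pos h3]
    have hn := hA (a - c, b - d - 1) (by rw [Int.even_iff] at h3; rw [Int.odd_iff]; simp only; omega)
    have e1 : -((a - c, b - d - 1) : Pt) = (c - a, d + 1 - b) := by
      ext <;> (simp; try ring)
    rw [e1] at hn
    have e2 : b + 1 - d = b - d + 1 := by ring
    simp only [Prod.mk_sub_mk]
    rw [hn, e2]; ring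
  · have h3 : ¬ Even (a - c + (b - d)) := by
      unfold White at h1 h2; rw [Int.odd_iff] at h1 h2; rw [Int.even_iff]; simp only at h1 h2; omega
    rw [if_pos h1, if_neg h2, if_neg h2, if_pos h1, if_neg h3]
    have hn := hA (a - c, b - d) (by rw [Int.even_iff] at h3; rw [Int.odd_iff]; simp only; omega)
    have e1 : -((a - c, b - d) : Pt) = (c - a, d - b) := by
      ext <;> simp
    rw [e1] at hn
    have e2 : b + 1 - (d + 1) = b - d := by ring
    simp only [Prod.mk_sub_mk]
    rw [hn, e2]; ring
  · have h3 : ¬ Even (a - c + (b - d)) := by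
      unfold White at h1 h2; rw [Int.odd_iff] at h1 h2; rw [Int.even_iff]; simp only at h1 h2; omega
    rw [if_neg h1, if_pos h2, if_pos h2, if_neg h1, if_neg h3]
    have hn := hA (a - c, b - d) (by rw [Int.even_iff] at h3; rw [Int.odd_iff]; simp only; omega)
    have e1 : -((a - c, b - d) : Pt) = (c - a, d - b) := by
      ext <;> simp
    rw [e1] at hn
    have e2 : d + 1 - (b + 1) = d - b := by ring
    simp only [Prod.mk_sub_mk]
    rw [e2, hn]; ring
  · have h3 : Even (a - c + (b - d)) := by
      unfold White at h1 h2; rw [Int.odd_iff] at h1 h2; rw [Int.even_iff]; simp only at h1 h2; omega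
    rw [if_neg h1, if_neg h2, if_neg h2, if_neg h1, if_pos h3]
    have hn := hA (a - c, b - d + 1) (by rw [Int.even_iff] at h3; rw [Int.odd_iff]; simp only; omega)
    have e1 : -((a - c, b - d + 1) : Pt) = (c - a, d - (b + 1)) := by
      ext <;> (simp; try ring)
    rw [e1] at hn
    have e2 : b - (d + 1) = b - d - 1 := by ring
    simp only [Prod.mk_sub_mk]
    rw [hn, e2]; ring

theorem v_inj {v v' : Pt} (h1 : vW v = vW v') (h2 : vB v = vB v') : v = v' := by
  obtain ⟨a, b⟩ := v
  obtain ⟨c, d⟩ := v'
  unfold vW at h1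
  unfold vB at h2
  by_cases hv : White (a, b) <;> by_cases hv' : White (c, d) <;>
    simp only [hv, hv', if_true, if_false, Prod.mk.injEq] at h1 h2 <;>
    ext <;> simp only <;> omega

theorem h_v_ne (v v' : Pt) : ¬ (hW v = vW v' ∧ hB v = vB v') := by
  rintro ⟨h1, h2⟩
  obtain ⟨a, b⟩ := v
  obtain ⟨c, d⟩ := v'
  unfold hW vW at h1
  unfold hB vB at h2
  by_cases hv : White (a, b) <;> by_cases hv' : White (c, d) <;>
    simp only [hv, hv', if_true, if_false, Prod.mk.injEq] at h1 h2 <;> omega

theorem cXX_eq (hA : ∀ z : Pt, Odd (z.1 + z.2) → A (-z) = - A z) (v v' : Pt) :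
    cXX (Kp A) v v' = CV A (v - v') := by
  unfold cXX eCov
  rw [K_v, K_v, ss_eq, ss_eq]
  have hG : Kp A (vB v) (vW v') * Kp A (vB v') (vW v) =
      (if Odd (v - v').1 then 1 else sg v.1 * sg v'.1) *
        (A (vB v - vW v') * A (vB v' - vW v)) := by
    unfold Kp
    rw [sg_vW, sg_vW, vB_fst, vB_fst, vW_fst, vW_fst]
    have e : Odd (v'.1 - v.1) ↔ Odd (v.1 - v'.1) := by
      rw [Int.odd_iff, Int.odd_iff]; omega
    have e2 : (v - v').1 = v.1 - v'.1 := rfl
    rw [e2]
    by_cases h : Odd (v.1 - v'.1)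
    · rw [if_pos h, if_pos (e.2 h), if_pos h]; ring
    · rw [if_neg h, if_neg (fun h' => h (e.1 h')), if_neg h]; ring
  have hG' : sg v.2 * sg v'.2 * Kp A (vB v) (vW v') * Kp A (vB v') (vW v) =
      sg v.2 * sg v'.2 * ((if Odd (v - v').1 then 1 else sg v.1 * sg v'.1) *
        (A (vB v - vW v') * A (vB v' - vW v))) := by
    rw [← hG]; ring
  rw [hG', prod_vv hA]
  have s1 := sg_sq v.1
  have s2 := sg_sq v.2
  have s3 := sg_sq v'.1
  have s4 := sg_sq v'.2
  have hprod : sg v.1 * sg v'.1 = if Odd (v - v').1 then -1 else 1 := by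
    have : sg (v.1 - v'.1 + v'.1) = sg (v.1 - v'.1) * sg v'.1 := sg_add _ _
    rw [sub_add_cancel] at this
    rw [this, mul_assoc, s3, mul_one]
    have e2 : (v - v').1 = v.1 - v'.1 := rfl
    rw [e2]
    by_cases h : Odd (v.1 - v'.1)
    · rw [if_pos h, sg_odd h]
    · rw [if_neg h, sg_even (Int.not_odd_iff_even.1 h)]
  -- diagonal term
  have hdiag : sg v.1 * sg v.2 * (sg v'.1 * sg v'.2) *
      (if vW v = vW v' ∧ vB v = vB v' then sg v.2 * Kp A (vB v) (vW v) else 0) =
      if v - v' = 0 then A (0, 1) else 0 := by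
    by_cases h : v = v'
    · subst h
      rw [if_pos ⟨rfl, rfl⟩, sub_self, if_pos rfl]
      have hK : Kp A (vB v) (vW v) = - sg v.1 * A (vB v - vW v) := by
        unfold Kp
        rw [sg_vW, vB_fst, vW_fst, sub_self, if_neg (by decide)]
      rw [hK]
      by_cases hw : White v
      · have e1 : vB v - vW v = (0, 1) := by
          unfold vB vW; rw [if_pos hw, if_pos hw]; ext <;> simp
        have h' : Odd (v.1 + v.2) := hw
        have h3 := sg_odd h'
        rw [sg_add] at h3
        rw [e1]
        linear_combination (-(sg v.2 * sg v.2 * sg v.1 * sg v.2) * A (0, 1)) * s1 -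
          (sg v.1 * sg v.2 * A (0, 1)) * s2 - A (0, 1) * h3
      · have e1 : vB v - vW v = -(0, 1) := by
          unfold vB vW; rw [if_neg hw, if_neg hw]; ext <;> simp
        have h' : Even (v.1 + v.2) := Int.not_odd_iff_even.1 hw
        have h3 := sg_even h'
        rw [sg_add] at h3
        rw [e1, hA (0, 1) (by decide)]
        linear_combination ((sg v.2 * sg v.2 * sg v.1 * sg v.2) * A (0, 1)) * s1 +
          (sg v.1 * sg v.2 * A (0, 1)) * s2 + A (0, 1) * h3
    · rw [if_neg (fun hc => h (v_inj hc.1 hc.2)), if_neg (fun hc => h (sub_eq_zero.1 hc)), mul_zero]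
  rw [mul_sub, hdiag]
  unfold CV
  have key : sg v.1 * sg v.2 * (sg v'.1 * sg v'.2) * (sg v.2 * sg v'.2) = sg v.1 * sg v'.1 := by
    linear_combination (sg v.1 * sg v'.1 * sg v'.2 * sg v'.2) * s2 + (sg v.1 * sg v'.1) * s4
  generalize hz : v - v' = z at *
  by_cases hx : Odd z.1
  · have hx' : ¬ Even z.1 := Int.not_even_iff_odd.2 hx
    rw [if_pos hx] at hprod ⊢
    rw [if_neg hx']
    have hz0 : ¬ z = 0 := by rintro rfl; simp at hx
    rw [if_neg hz0]
    by_cases hy : Even z.2
    · have h3 : ¬ Even (z.1 + z.2) := Int.not_even_iff_odd.2 (hx.add_even hy)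
      rw [if_neg h3, if_pos hy]
      linear_combination (A z ^ 2) * key + (A z ^ 2) * hprod
    · have h3 : Even (z.1 + z.2) := hx.add_odd (Int.not_even_iff_odd.1 hy)
      rw [if_pos h3, if_neg hy]
      linear_combination (A (z.1, z.2 + 1) * A (z.1, z.2 - 1)) * key +
        (A (z.1, z.2 + 1) * A (z.1, z.2 - 1)) * hprod
  · have hx' : Even z.1 := Int.not_odd_iff_even.1 hx
    rw [if_neg hx] at hprod ⊢
    rw [if_pos hx']
    by_cases hy : Even z.2
    · have h3 : Even (z.1 + z.2) := hx'.add hy
      rw [if_pos h3, if_pos hy]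
      linear_combination (sg v.1 * sg v'.1 * (A (z.1, z.2 + 1) * A (z.1, z.2 - 1))) * key +
        (A (z.1, z.2 + 1) * A (z.1, z.2 - 1)) * (sg v.1 * sg v'.1 + 1) * hprod
    · have h3 : ¬ Even (z.1 + z.2) :=
        Int.not_even_iff_odd.2 (hx'.add_odd (Int.not_even_iff_odd.1 hy))
      have hz0 : ¬ z = 0 := by rintro rfl; simp at hy
      rw [if_neg h3, if_neg hy, if_neg hz0]
      linear_combination (sg v.1 * sg v'.1 * (A z ^ 2)) * key +
        (A z ^ 2) * (sg v.1 * sg v'.1 + 1) * hprod

theorem white_iff (a b : ℤ) : White (a, b) ↔ Odd (a + b) := Iff.rfl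

theorem prod_hv (hA : ∀ z : Pt, Odd (z.1 + z.2) → A (-z) = - A z) (v v' : Pt) :
    Kp A (hB v) (vW v') * Kp A (vB v') (hW v) = sg v'.1 * TT A (v - v') := by
  obtain ⟨a, b⟩ := v
  obtain ⟨c, d⟩ := v'
  unfold Kp
  rw [sg_vW, sg_hW, vB_fst, vW_fst]
  unfold hB hW vB vW
  have s1 := sg_sq a
  have s2 := sg_sq b
  have s3 := sg_sq c
  have s4 := sg_sq d
  by_cases h1 : White (a, b) <;> by_cases h2 : White (c, d)
  · -- both white: x + y even
    simp only [h1, h2, if_true, Prod.mk_sub_mk]
    rw [white_iff] at h1 h2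
    have hxy : Even (a - c + (b - d)) := by
      rw [Int.odd_iff] at h1 h2; rw [Int.even_iff]; omega
    unfold TT
    simp only [hxy, if_true]
    have hn := hA (a - c, b - d - 1) (by rw [Int.even_iff] at hxy; rw [Int.odd_iff]; simp only; omega)
    have e1 : -((a - c, b - d - 1) : Pt) = (c - a, d + 1 - b) := by
      ext <;> (simp; try ring)
    rw [e1] at hn
    rw [hn, show a + 1 - c = a - c + 1 by ring]
    have hcd := sg_odd h2
    rw [sg_add] at hcd
    by_cases hx : Odd (a - c)
    · have o1 : ¬ Odd (a - c + 1) := by rw [Int.odd_iff] at *; omega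
      have o2 : Odd (c - a) := by rw [Int.odd_iff] at *; omega
      rw [if_neg o1, if_pos o2]
      ring
    · have o1 : Odd (a - c + 1) := by rw [Int.odd_iff] at *; omega
      have o2 : ¬ Odd (c - a) := by rw [Int.odd_iff] at *; omega
      rw [if_pos o1, if_neg o2]
      have hb : sg b = sg d := by
        have : sg (d + (b - d)) = sg d * sg (b - d) := sg_add _ _
        rw [show d + (b - d) = b by ring] at this
        have hbd : sg (b - d) = 1 :=
          sg_even (by rw [Int.odd_iff] at hx; rw [Int.even_iff] at hxy ⊢; omega)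
        rw [this, hbd, mul_one]
      rw [hb]
      have hd : sg d = - sg c := of_prod_neg (sg_cases c) hcd
      rw [hd]
      ring
  · -- v white, v' black
    simp only [h1, h2, if_true, if_false, Prod.mk_sub_mk]
    rw [white_iff] at h1 h2
    have hxy : ¬ Even (a - c + (b - d)) := by
      rw [Int.odd_iff] at h1 h2; rw [Int.even_iff]; omega
    unfold TT
    simp only [hxy, if_false]
    have hn := hA (a - c, b - d) (by rw [Int.even_iff] at hxy; rw [Int.odd_iff]; simp only; omega)
    have e1 : -((a - c, b - d) : Pt) = (c - a, d - b) := by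
      ext <;> (simp; try ring)
    rw [e1] at hn
    rw [hn, show a + 1 - c = a - c + 1 by ring, show b - (d + 1) = b - d - 1 by ring]
    have hcd := sg_even (Int.not_odd_iff_even.1 h2)
    rw [sg_add] at hcd
    by_cases hx : Odd (a - c)
    · have o1 : ¬ Odd (a - c + 1) := by rw [Int.odd_iff] at *; omega
      have o2 : Odd (c - a) := by rw [Int.odd_iff] at *; omega
      rw [if_neg o1, if_pos o2]
      ring
    · have o1 : Odd (a - c + 1) := by rw [Int.odd_iff] at *; omega
      have o2 : ¬ Odd (c - a) := by rw [Int.odd_iff] at *; omega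
      rw [if_pos o1, if_neg o2]
      have hb : sg b = - sg d := by
        have : sg (d + (b - d)) = sg d * sg (b - d) := sg_add _ _
        rw [show d + (b - d) = b by ring] at this
        have hbd : sg (b - d) = -1 :=
          sg_odd (by rw [Int.odd_iff] at hx ⊢; rw [Int.even_iff] at hxy; omega)
        rw [this, hbd]
        ring
      rw [hb]
      have hd : sg d = sg c := of_prod_one (sg_cases c) hcd
      rw [hd]
      ring
  · -- v black, v' white
    simp only [h1, h2, if_true, if_false, Prod.mk_sub_mk]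
    rw [white_iff] at h1 h2
    have hxy : ¬ Even (a - c + (b - d)) := by
      rw [Int.odd_iff] at h1 h2; rw [Int.even_iff]; omega
    unfold TT
    simp only [hxy, if_false]
    have hn := hA (a - c + 1, b - d - 1)
      (by rw [Int.even_iff] at hxy; rw [Int.odd_iff]; simp only; omega)
    have e1 : -((a - c + 1, b - d - 1) : Pt) = (c - (a + 1), d + 1 - b) := by
      ext <;> (simp; try ring)
    rw [e1] at hn
    rw [hn]
    have hcd := sg_odd h2
    rw [sg_add] at hcd
    by_cases hx : Odd (a - c)
    · have o2 : ¬ Odd (c - (a + 1)) := by rw [Int.odd_iff] at *; omega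
      rw [if_pos hx, if_neg o2]
      have hb : sg b = sg d := by
        have : sg (d + (b - d)) = sg d * sg (b - d) := sg_add _ _
        rw [show d + (b - d) = b by ring] at this
        have hbd : sg (b - d) = 1 :=
          sg_even (by rw [Int.odd_iff] at hx; rw [Int.even_iff] at hxy ⊢; omega)
        rw [this, hbd, mul_one]
      rw [hb]
      have hd : sg d = - sg c := of_prod_neg (sg_cases c) hcd
      rw [hd]
      ring
    · have o2 : Odd (c - (a + 1)) := by rw [Int.odd_iff] at *; omega
      rw [if_neg hx, if_pos o2]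
      ring
  · -- both black
    simp only [h1, h2, if_false, Prod.mk_sub_mk]
    rw [white_iff] at h1 h2
    have hxy : Even (a - c + (b - d)) := by
      rw [Int.odd_iff] at h1 h2; rw [Int.even_iff]; omega
    unfold TT
    simp only [hxy, if_true]
    have hn := hA (a - c + 1, b - d)
      (by rw [Int.even_iff] at hxy; rw [Int.odd_iff]; simp only; omega)
    have e1 : -((a - c + 1, b - d) : Pt) = (c - (a + 1), d - b) := by
      ext <;> (simp; try ring)
    rw [e1] at hn
    rw [hn, show b - (d + 1) = b - d - 1 by ring]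
    have hcd := sg_even (Int.not_odd_iff_even.1 h2)
    rw [sg_add] at hcd
    by_cases hx : Odd (a - c)
    · have o2 : ¬ Odd (c - (a + 1)) := by rw [Int.odd_iff] at *; omega
      rw [if_pos hx, if_neg o2]
      have hb : sg b = - sg d := by
        have : sg (d + (b - d)) = sg d * sg (b - d) := sg_add _ _
        rw [show d + (b - d) = b by ring] at this
        have hbd : sg (b - d) = -1 :=
          sg_odd (by rw [Int.odd_iff] at hx ⊢; rw [Int.even_iff] at hxy; omega)
        rw [this, hbd]
        ring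
      rw [hb]
      have hd : sg d = sg c := of_prod_one (sg_cases c) hcd
      rw [hd]
      ring
    · have o2 : Odd (c - (a + 1)) := by rw [Int.odd_iff] at *; omega
      rw [if_neg hx, if_pos o2]
      ring

theorem cYX_eq (hA : ∀ z : Pt, Odd (z.1 + z.2) → A (-z) = - A z) (v v' : Pt) :
    cYX (Kp A) v v' = - TT A (v - v') := by
  unfold cYX eCov
  rw [if_neg (h_v_ne v v'), K_h, K_v, zero_sub]
  have hP := prod_hv hA v v'
  have hs : ss v * ss v = 1 := by
    rw [ss_eq]
    linear_combination (sg v.1 * sg v.1) * sg_sq v.2 + sg_sq v.1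
  have e : -(ss v * ss v' * -(- ss v * sg v'.2 * Kp A (hB v) (vW v') * Kp A (vB v') (hW v))) =
      -((ss v * ss v) * (ss v' * sg v'.2) * (Kp A (hB v) (vW v') * Kp A (vB v') (hW v))) := by ring
  rw [e, hs, hP, ss_eq v']
  linear_combination (-(sg v'.1 * sg v'.1 * TT A (v - v'))) * sg_sq v'.2 -
    TT A (v - v') * sg_sq v'.1

end Vale.Agent.P155.B1b
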