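import Vale.Agent.P155.B1b.Asy2

/-!
# P155: sums of the plane covariances along rows
-/

namespace Vale.Agent.P155.B1b

open Finset

theorem sum_Ico_tele (f : ℤ → ℝ) {a b : ℤ} (h : a ≤ b) :
    ∑ k ∈ Finset.Ico a b, (f (k + 1) - f k) = f b - f a := by
  induction b, h using Int.leInduction with
  | base => simp
  | succ b hab ih =>
    have e : Finset.Ico a (b + 1) = insert b (Finset.Ico a b) := by
      ext x; simp only [Finset.mem_Ico, Finset.mem_insert]; omega
    rw [e, Finset.sum_insert (by simp), ih]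
    ring

theorem sum_Ico_split (f : ℤ → ℝ) {a b c : ℤ} (h1 : a ≤ b) (h2 : b ≤ c) :
    ∑ k ∈ Finset.Ico a c, f k = ∑ k ∈ Finset.Ico a b, f k + ∑ k ∈ Finset.Ico b c, f k := by
  rw [← Finset.sum_union]
  · congr 1
    ext x; simp only [Finset.mem_Ico, Finset.mem_union]; omega
  · rw [Finset.disjoint_left]
    intro x hx hx'
    simp only [Finset.mem_Ico] at hx hx'
    omega

/-! ## the exact identity -/

theorem Apl_neg_one : Apl (0, -1) = - Apl (0, 1) := by
  rw [Apl_even (by decide), Apl_even (by decide)]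
  norm_num

theorem CV_TT (x y : ℤ) :
    CV Apl (x, y - 1) - CV Apl (x, y) = TT Apl (x, y) - TT Apl (x - 1, y) := by
  unfold CV TT
  simp only
  have ey : y - 1 + 1 = y := by ring
  have ex : x - 1 + 1 = x := by ring
  rw [ey, ex]
  rcases Int.even_or_odd x with hx | hx <;> rcases Int.even_or_odd y with hy | hy
  · have h1 : ¬ Even (y - 1) := by rw [Int.not_even_iff_odd]; exact hy.sub_odd odd_one
    have h2 : Even (x + y) := hx.add hy
    have h3 : ¬ Even (x - 1 + y) := by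
      rw [Int.not_even_iff_odd]; exact (hx.sub_odd odd_one).add_even hy
    simp only [hx, hy, h1, h2, h3, if_true, if_false]
    have hr := Apl_rel_even hx hy
    by_cases h0 : x = 0 ∧ y = 0
    · obtain ⟨rfl, rfl⟩ := h0
      have hn := Apl_neg_one
      simp only [and_self, if_true] at hr
      have e0 : ((0, 0) : Pt) = 0 := rfl
      rw [if_pos e0]
      norm_num at hr ⊢
      linear_combination (Apl (0, -1)) * (-hr) - hn
    · rw [if_neg h0] at hr
      have e0 : ¬ ((x, y) : Pt) = 0 := by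
        intro h; exact h0 ⟨congrArg Prod.fst h, congrArg Prod.snd h⟩
      rw [if_neg e0]
      linear_combination (Apl (x, y - 1)) * (-hr)
  · have h1 : Even (y - 1) := hy.sub_odd odd_one
    have h2 : ¬ Even (x + y) := by rw [Int.not_even_iff_odd]; exact hx.add_odd hy
    have h3 : Even (x - 1 + y) := (hx.sub_odd odd_one).add_odd hy
    have h4 : ¬ Even y := Int.not_even_iff_odd.2 hy
    simp only [hx, h1, h2, h3, h4, if_true, if_false]
    have hr := Apl_rel_even hx h1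
    rw [ey] at hr
    have e2 : y - 1 - 1 = y - 2 := by ring
    rw [e2] at hr ⊢
    by_cases h0 : x = 0 ∧ y - 1 = 0
    · have hy1 : y = 1 := by omega
      obtain ⟨rfl, _⟩ := h0
      subst hy1
      simp only [sub_self, and_self, if_true] at hr
      have e0 : ((0, 1 - 1) : Pt) = 0 := rfl
      rw [if_pos e0]
      norm_num at hr ⊢
      linear_combination (Apl (0, 1)) * (-hr)
    · rw [if_neg h0] at hr
      have e0 : ¬ ((x, y - 1) : Pt) = 0 := by
        intro h; exact h0 ⟨congrArg Prod.fst h, congrArg Prod.snd h⟩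
      rw [if_neg e0]
      linear_combination (Apl (x, y)) * (-hr)
  · have h1 : ¬ Even (y - 1) := by rw [Int.not_even_iff_odd]; exact hy.sub_odd odd_one
    have h2 : ¬ Even (x + y) := by rw [Int.not_even_iff_odd]; exact hx.add_even hy
    have h3 : Even (x - 1 + y) := (hx.sub_odd odd_one).add hy
    have h4 : ¬ Even x := Int.not_even_iff_odd.2 hx
    simp only [hy, h1, h2, h3, h4, if_true, if_false]
    have hr := Apl_rel_odd hx (Int.not_even_iff_odd.1 h1)
    rw [ey] at hr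
    linear_combination (Apl (x, y)) * (-hr)
  · have h1 : Even (y - 1) := hy.sub_odd odd_one
    have h2 : Even (x + y) := hx.add_odd hy
    have h3 : ¬ Even (x - 1 + y) := by
      rw [Int.not_even_iff_odd]; exact (hx.sub_odd odd_one).add_odd hy
    have h4 : ¬ Even y := Int.not_even_iff_odd.2 hy
    have h5 : ¬ Even x := Int.not_even_iff_odd.2 hx
    simp only [h1, h2, h3, h4, h5, if_true, if_false]
    have hr := Apl_rel_odd hx hy
    linear_combination (Apl (x, y - 1)) * (-hr)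

/-! ## crude bounds -/

theorem abs_LL_le' (k q : ℤ) : |LL k q| ≤ 4 / sz k q ^ 2 := by
  have hs0 := sz_pos k q
  have e : (4 : ℝ) / sz k q ^ 2 = (2 / sz k q) ^ 2 := by rw [div_pow]; norm_num
  rw [e]
  unfold LL
  split_ifs
  · rw [abs_pow]
    have := abs_g_le_one q k
    rw [sz_comm] at this
    exact pow_le_pow_left₀ (abs_nonneg _) this 2
  · rw [abs_neg, abs_pow]
    exact pow_le_pow_left₀ (abs_nonneg _) (abs_g_le_one k q) 2

theorem cube_le_sq {s C : ℝ} (hC : 0 ≤ C) (hs : 1 ≤ s) : C / s ^ 3 ≤ C / s ^ 2 := by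
  apply div_le_div_of_nonneg_left hC (by positivity)
  exact pow_le_pow_right₀ hs (by norm_num)

theorem abs_CV_le (k q : ℤ) : |CV Apl (k, q)| ≤ 1100000 / sz k q ^ 2 := by
  have h1 := CV_err k q
  have h2 := abs_LL_le' k q
  have hs := one_le_sz k q
  have hs0 := sz_pos k q
  have h3 := cube_le_sq (C := 1000000) (by norm_num) hs
  have e : CV Apl (k, q) = (CV Apl (k, q) - LL k q) + LL k q := by ring
  rw [e]
  refine (abs_add_le _ _).trans ((add_le_add (h1.trans h3) h2).trans ?_)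
  rw [← add_div]
  gcongr
  norm_num

theorem abs_TT_le (k q : ℤ) : |TT Apl (k, q)| ≤ 1100000 / sz k q ^ 2 := by
  have h1 := TT_err k q
  have hs := one_le_sz k q
  have hs0 := sz_pos k q
  have h2 : |g k q * g q k| ≤ 4 / sz k q ^ 2 := by
    rw [abs_mul]
    have a1 := abs_g_le_one k q
    have a2 := abs_g_le_one q k
    rw [sz_comm] at a2
    calc |g k q| * |g q k| ≤ (2 / sz k q) * (2 / sz k q) :=
          mul_le_mul a1 a2 (abs_nonneg _) (by positivity)
      _ = 4 / sz k q ^ 2 := by field_simp; norm_num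
  have h3 := cube_le_sq (C := 500000) (by norm_num) hs
  have e : TT Apl (k, q) = (TT Apl (k, q) - g k q * g q k) + g k q * g q k := by ring
  rw [e]
  refine (abs_add_le _ _).trans ((add_le_add (h1.trans h3) h2).trans ?_)
  rw [← add_div]
  gcongr
  norm_num

/-! ## full rows -/

/-- truncated row sum -/
noncomputable def SM (M q : ℤ) : ℝ := ∑ k ∈ Finset.Ico (-M) M, CV Apl (k, q)

theorem SM_step {M : ℤ} (hM : 1 ≤ M) (q : ℤ) :
    |SM M (q - 1) - SM M q| ≤ 2200000 / (M : ℝ) ^ 2 := by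
  have hMR : (1 : ℝ) ≤ M := by exact_mod_cast hM
  have e : SM M (q - 1) - SM M q = TT Apl (M - 1, q) - TT Apl (-M - 1, q) := by
    unfold SM
    rw [← Finset.sum_sub_distrib]
    have h := sum_Ico_tele (fun k => TT Apl (k - 1, q)) (a := -M) (b := M) (by omega)
    rw [← h]
    apply Finset.sum_congr rfl
    intro k _
    have := CV_TT k q
    rw [this]
    simp
  rw [e]
  have b1 := abs_TT_le (M - 1) q
  have b2 := abs_TT_le (-M - 1) q
  have s1 : (M : ℝ) ≤ sz (M - 1) q := by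
    unfold sz
    have := abs_nonneg (q : ℝ)
    have := le_abs_self (((M - 1 : ℤ) : ℝ))
    push_cast at this ⊢
    linarith
  have s2 : (M : ℝ) ≤ sz (-M - 1) q := by
    unfold sz
    have := abs_nonneg (q : ℝ)
    have := neg_abs_le (((-M - 1 : ℤ) : ℝ))
    push_cast at this ⊢
    linarith
  have c1 : 1100000 / sz (M - 1) q ^ 2 ≤ 1100000 / (M : ℝ) ^ 2 := by
    have := sz_pos (M - 1) q
    gcongr
  have c2 : 1100000 / sz (-M - 1) q ^ 2 ≤ 1100000 / (M : ℝ) ^ 2 := by
    have := sz_pos (-M - 1) q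
    gcongr
  refine (abs_sub _ _).trans ((add_le_add (b1.trans c1) (b2.trans c2)).trans (le_of_eq ?_))
  ring

theorem SM_top {M : ℤ} (hM : 1 ≤ M) : |SM M M| ≤ 2200000 / (M : ℝ) := by
  have hMR : (1 : ℝ) ≤ M := by exact_mod_cast hM
  unfold SM
  refine (Finset.abs_sum_le_sum_abs _ _).trans ?_
  have h1 : ∀ k ∈ Finset.Ico (-M) M, |CV Apl (k, M)| ≤ 1100000 / (M : ℝ) ^ 2 := by
    intro k _
    refine (abs_CV_le k M).trans ?_
    have s1 : (M : ℝ) ≤ sz k M := by
      unfold sz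
      have := abs_nonneg (k : ℝ)
      have := le_abs_self (M : ℝ)
      linarith
    have := sz_pos k M
    gcongr
  refine (Finset.sum_le_sum h1).trans ?_
  rw [Finset.sum_const, nsmul_eq_mul]
  have hc : ((Finset.Ico (-M) M).card : ℝ) = 2 * M := by
    rw [Int.card_Ico]
    have : ((M - -M).toNat : ℤ) = 2 * M := by omega
    exact_mod_cast this
  rw [hc]
  apply le_of_eq
  field_simp
  norm_num

theorem SM_le {M : ℤ} (hM : 1 ≤ M) {q : ℤ} (hq : |q| ≤ M) : |SM M q| ≤ 7000000 / (M : ℝ) := by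
  have hMR : (1 : ℝ) ≤ M := by exact_mod_cast hM
  have hind : ∀ n : ℕ, |SM M (M - n)| ≤ 2200000 / (M : ℝ) + n * (2200000 / (M : ℝ) ^ 2) := by
    intro n
    induction n with
    | zero => simpa using SM_top hM
    | succ n ih =>
      have h := SM_step hM (M - n)
      have e : (M - n : ℤ) - 1 = M - (n + 1 : ℕ) := by push_cast; ring
      rw [e] at h
      have e2 : SM M (M - (n + 1 : ℕ)) = (SM M (M - (n + 1 : ℕ)) - SM M (M - n)) + SM M (M - n) := by
        ring
      rw [e2]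
      refine (abs_add_le _ _).trans ((add_le_add h ih).trans (le_of_eq ?_))
      push_cast
      ring
  have hq' := abs_le.1 hq
  have h := hind (M - q).toNat
  have e : M - ((M - q).toNat : ℤ) = q := by omega
  rw [e] at h
  have hn : (((M - q).toNat : ℕ) : ℝ) ≤ 2 * M := by
    have : ((M - q).toNat : ℤ) ≤ 2 * M := by omega
    exact_mod_cast this
  refine h.trans ?_
  have hp : (0 : ℝ) ≤ 2200000 / (M : ℝ) ^ 2 := by positivity
  calc 2200000 / (M : ℝ) + ((M - q).toNat : ℕ) * (2200000 / (M : ℝ) ^ 2)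
      ≤ 2200000 / (M : ℝ) + (2 * M) * (2200000 / (M : ℝ) ^ 2) := by
        gcongr
    _ = 6600000 / (M : ℝ) := by field_simp; norm_num
    _ ≤ 7000000 / (M : ℝ) := by gcongr; norm_num

/-! ## parts of rows -/

theorem row_part (q : ℤ) {a b : ℤ} (h : a ≤ b) :
    |∑ k ∈ Finset.Ico a b, CV Apl (k, q) - (PX a q - PX b q)| ≤
      ∑ k ∈ Finset.Ico a b, 2000000 / sz k q ^ 3 := by
  have ht := sum_Ico_tele (fun k => - PX k q) h
  have e : ∑ k ∈ Finset.Ico a b, CV Apl (k, q) - (PX a q - PX b q) =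
      ∑ k ∈ Finset.Ico a b, (CV Apl (k, q) - (PX k q - PX (k + 1) q)) := by
    rw [Finset.sum_sub_distrib]
    congr 1
    have : PX a q - PX b q = - PX b q - - PX a q := by ring
    rw [this, ← ht]
    apply Finset.sum_congr rfl
    intro k _
    ring
  rw [e]
  exact (Finset.abs_sum_le_sum_abs _ _).trans (Finset.sum_le_sum fun k _ => CV_tele k q)

theorem row_part_T (q : ℤ) {a b : ℤ} (h : a ≤ b) :
    |∑ k ∈ Finset.Ico a b, TT Apl (k, q) - (PY a q - PY b q)| ≤
      ∑ k ∈ Finset.Ico a b, 2000000 / sz k q ^ 3 := by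
  have ht := sum_Ico_tele (fun k => - PY k q) h
  have e : ∑ k ∈ Finset.Ico a b, TT Apl (k, q) - (PY a q - PY b q) =
      ∑ k ∈ Finset.Ico a b, (TT Apl (k, q) - (PY k q - PY (k + 1) q)) := by
    rw [Finset.sum_sub_distrib]
    congr 1
    have : PY a q - PY b q = - PY b q - - PY a q := by ring
    rw [this, ← ht]
    apply Finset.sum_congr rfl
    intro k _
    ring
  rw [e]
  exact (Finset.abs_sum_le_sum_abs _ _).trans (Finset.sum_le_sum fun k _ => TT_tele' k q)

theorem cube_tele {x : ℝ} (hx : 1 ≤ x) : 1 / (1 + x) ^ 3 ≤ 1 / x ^ 2 - 1 / (x + 1) ^ 2 := by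
  have h0 : 0 < x := by linarith
  have e : 1 / x ^ 2 - 1 / (x + 1) ^ 2 = (2 * x + 1) / (x ^ 2 * (x + 1) ^ 2) := by
    field_simp
    ring
  rw [e, div_le_div_iff₀ (by positivity) (by positivity)]
  have : (2 * x + 1) * (1 + x) ^ 3 - 1 * (x ^ 2 * (x + 1) ^ 2) =
      (1 + x) ^ 2 * ((2 * x + 1) * (1 + x) - x ^ 2) := by ring
  have h2 : 0 ≤ (1 + x) ^ 2 * ((2 * x + 1) * (1 + x) - x ^ 2) := by
    apply mul_nonneg (by positivity)
    nlinarith
  linarith

theorem tail_right (q : ℤ) {a b : ℤ} (ha : 1 ≤ a) (h : a ≤ b) :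
    ∑ k ∈ Finset.Ico a b, 2000000 / sz k q ^ 3 ≤ 2000000 / (a : ℝ) ^ 2 := by
  have haR : (1 : ℝ) ≤ a := by exact_mod_cast ha
  have h1 : ∀ k ∈ Finset.Ico a b, 2000000 / sz k q ^ 3 ≤
      -(2000000 / ((k + 1 : ℤ) : ℝ) ^ 2) - -(2000000 / (k : ℝ) ^ 2) := by
    intro k hk
    have hk' : (a : ℝ) ≤ k := by exact_mod_cast (Finset.mem_Ico.1 hk).1
    have hk1 : (1 : ℝ) ≤ k := haR.trans hk'
    have hc := cube_tele hk1
    have hs : 1 + (k : ℝ) ≤ sz k q := by
      unfold sz
      have := abs_nonneg (q : ℝ)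
      have := le_abs_self (k : ℝ)
      linarith
    have h2 : 2000000 / sz k q ^ 3 ≤ 2000000 / (1 + (k : ℝ)) ^ 3 := by
      gcongr
    push_cast
    calc 2000000 / sz k q ^ 3 ≤ 2000000 / (1 + (k : ℝ)) ^ 3 := h2
      _ = 2000000 * (1 / (1 + (k : ℝ)) ^ 3) := by ring
      _ ≤ 2000000 * (1 / (k : ℝ) ^ 2 - 1 / ((k : ℝ) + 1) ^ 2) := by gcongr
      _ = _ := by ring
  refine (Finset.sum_le_sum h1).trans ?_
  rw [sum_Ico_tele (fun k : ℤ => -(2000000 / (k : ℝ) ^ 2)) h]
  have : (0 : ℝ) ≤ 2000000 / (b : ℝ) ^ 2 := by positivity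
  linarith

theorem tail_left (q : ℤ) {a b : ℤ} (hb : b ≤ 0) (h : a ≤ b) :
    ∑ k ∈ Finset.Ico a b, 2000000 / sz k q ^ 3 ≤ 2000000 / ((b : ℝ) - 1) ^ 2 := by
  have hbR : (b : ℝ) ≤ 0 := by exact_mod_cast hb
  have h1 : ∀ k ∈ Finset.Ico a b, 2000000 / sz k q ^ 3 ≤
      (2000000 / (((k + 1 : ℤ) : ℝ) - 1) ^ 2) - (2000000 / ((k : ℝ) - 1) ^ 2) := by
    intro k hk
    have hkb := (Finset.mem_Ico.1 hk).2
    have hk1 : k ≤ -1 := by omega
    have hk1R : (k : ℝ) ≤ -1 := by exact_mod_cast hk1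
    have hx : (1 : ℝ) ≤ -(k : ℝ) := by linarith
    have hc := cube_tele hx
    have hs : 1 + -(k : ℝ) ≤ sz k q := by
      unfold sz
      have := abs_nonneg (q : ℝ)
      have := neg_abs_le (k : ℝ)
      linarith
    have h2 : 2000000 / sz k q ^ 3 ≤ 2000000 / (1 + -(k : ℝ)) ^ 3 := by
      have : (0 : ℝ) < 1 + -(k : ℝ) := by linarith
      gcongr
    push_cast
    calc 2000000 / sz k q ^ 3 ≤ 2000000 / (1 + -(k : ℝ)) ^ 3 := h2
      _ = 2000000 * (1 / (1 + -(k : ℝ)) ^ 3) := by ring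
      _ ≤ 2000000 * (1 / (-(k : ℝ)) ^ 2 - 1 / (-(k : ℝ) + 1) ^ 2) := by gcongr
      _ = _ := by ring
  refine (Finset.sum_le_sum h1).trans ?_
  rw [sum_Ico_tele (fun k : ℤ => (2000000 / ((k : ℝ) - 1) ^ 2)) h]
  have : (0 : ℝ) ≤ 2000000 / ((a : ℝ) - 1) ^ 2 := by positivity
  linarith

theorem osc_le' (k q : ℤ) :
    |sg k / (4 * Real.pi ^ 2 * ((k : ℝ) ^ 2 + (q : ℝ) ^ 2))| ≤ 1 / sz k q ^ 2 := by
  rw [abs_div, abs_sg]
  have hs := sz_pos k q
  by_cases h : (k : ℝ) ^ 2 + (q : ℝ) ^ 2 = 0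
  · rw [h]; simp only [mul_zero, abs_zero, div_zero]; positivity
  have hn0 : 0 < (k : ℝ) ^ 2 + (q : ℝ) ^ 2 := lt_of_le_of_ne (by positivity) (Ne.symm h)
  have h1 : (1 : ℤ) ≤ |k| + |q| := by
    by_contra hc
    have hk : k = 0 := by
      have := abs_nonneg q
      have := abs_nonneg k
      have : |k| = 0 := by omega
      exact abs_eq_zero.1 this
    have hq : q = 0 := by
      have := abs_nonneg q
      have := abs_nonneg k
      have : |q| = 0 := by omega
      exact abs_eq_zero.1 this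
    subst hk; subst hq
    simp at hn0
  have h1R : (1 : ℝ) ≤ |(k : ℝ)| + |(q : ℝ)| := by exact_mod_cast h1
  have h2 := nn_ge k q
  have h3 : sz k q ≤ 2 * (|(k : ℝ)| + |(q : ℝ)|) := by unfold sz; linarith
  have h4 : sz k q ^ 2 ≤ (2 * (|(k : ℝ)| + |(q : ℝ)|)) ^ 2 := pow_le_pow_left₀ hs.le h3 2
  have h5 : sz k q ^ 2 ≤ 8 * ((k : ℝ) ^ 2 + (q : ℝ) ^ 2) := by nlinarith
  have hpi := Real.pi_gt_three
  have hpisq : 9 ≤ Real.pi ^ 2 := by nlinarith
  rw [abs_of_pos (by positivity), div_le_div_iff₀ (by positivity) (by positivity)]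
  nlinarith

theorem abs_PX_le' (k q : ℤ) : |PX k q| ≤ 2 / sz k q := by
  unfold PX
  have h1 := abs_g_le_one k q
  have h2 := osc_le' k q
  have hs := one_le_sz k q
  have hs0 := sz_pos k q
  have hpi := Real.pi_gt_three
  have h3 : |-(1 / (2 * Real.pi)) * g k q| ≤ 1 / sz k q := by
    rw [abs_mul, abs_neg, abs_of_pos (by positivity)]
    have : 1 / (2 * Real.pi) ≤ 1 / 2 := by
      apply one_div_le_one_div_of_le (by norm_num); linarith
    calc 1 / (2 * Real.pi) * |g k q| ≤ 1 / 2 * (2 / sz k q) :=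
          mul_le_mul this h1 (abs_nonneg _) (by norm_num)
      _ = 1 / sz k q := by ring
  have h4 : 1 / sz k q ^ 2 ≤ 1 / sz k q := by
    apply one_div_le_one_div_of_le hs0
    nlinarith
  refine (abs_add_le _ _).trans ((add_le_add h3 (h2.trans h4)).trans (le_of_eq ?_))
  ring

/-- a row containing the origin -/
theorem row_through {a b q : ℤ} (ha : a ≤ 0) (hb : 1 ≤ b) {M : ℤ} (haM : -M ≤ a) (hbM : b ≤ M)
    (hq : |q| ≤ M) :
    |∑ k ∈ Finset.Ico a b, CV Apl (k, q) - (PX a q - PX b q)| ≤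
      8000000 / (M : ℝ) + 2000000 / ((a : ℝ) - 1) ^ 2 + 2000000 / (b : ℝ) ^ 2 := by
  have hM : 1 ≤ M := hb.trans hbM
  have hMR : (1 : ℝ) ≤ M := by exact_mod_cast hM
  have h1 := sum_Ico_split (fun k => CV Apl (k, q)) (a := -M) (b := a) (c := M) haM (by omega)
  have h2 := sum_Ico_split (fun k => CV Apl (k, q)) (a := a) (b := b) (c := M) (by omega) hbM
  have h3 := row_part q haM
  have h4 := row_part q hbM
  have h5 := tail_left q ha haM
  have h6 := tail_right q hb hbM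
  have h7 := SM_le hM hq
  have h8 := abs_PX_le' (-M) q
  have h9 := abs_PX_le' M q
  have s1 : (M : ℝ) ≤ sz (-M) q := by
    unfold sz
    have := abs_nonneg (q : ℝ)
    have := neg_abs_le (((-M : ℤ) : ℝ))
    push_cast at this ⊢
    linarith
  have s2 : (M : ℝ) ≤ sz M q := by
    unfold sz
    have := abs_nonneg (q : ℝ)
    have := le_abs_self (M : ℝ)
    linarith
  have h8' : |PX (-M) q| ≤ 2 / M := h8.trans (by have := sz_pos (-M) q; gcongr)
  have h9' : |PX M q| ≤ 2 / M := h9.trans (by have := sz_pos M q; gcongr)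
  have e : ∑ k ∈ Finset.Ico a b, CV Apl (k, q) - (PX a q - PX b q) =
      SM M q - (∑ k ∈ Finset.Ico (-M) a, CV Apl (k, q) - (PX (-M) q - PX a q)) -
        (∑ k ∈ Finset.Ico b M, CV Apl (k, q) - (PX b q - PX M q)) - PX (-M) q + PX M q := by
    unfold SM
    linarith
  rw [e]
  have t1 := abs_add_le (SM M q - (∑ k ∈ Finset.Ico (-M) a, CV Apl (k, q) - (PX (-M) q - PX a q)) -
        (∑ k ∈ Finset.Ico b M, CV Apl (k, q) - (PX b q - PX M q)) - PX (-M) q) (PX M q)
  have t2 := abs_sub (SM M q - (∑ k ∈ Finset.Ico (-M) a, CV Apl (k, q) - (PX (-M) q - PX a q)) -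
        (∑ k ∈ Finset.Ico b M, CV Apl (k, q) - (PX b q - PX M q))) (PX (-M) q)
  have t3 := abs_sub (SM M q - (∑ k ∈ Finset.Ico (-M) a, CV Apl (k, q) - (PX (-M) q - PX a q)))
        (∑ k ∈ Finset.Ico b M, CV Apl (k, q) - (PX b q - PX M q))
  have t4 := abs_sub (SM M q) (∑ k ∈ Finset.Ico (-M) a, CV Apl (k, q) - (PX (-M) q - PX a q))
  have e8 : (8000000 : ℝ) / M = 7000000 / M + 2 / M + 2 / M + 999996 / M := by ring
  have hp : (0 : ℝ) ≤ 999996 / M := by positivity
  linarith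

end Vale.Agent.P155.B1b
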