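import Vale.Agent.P155.Defs2

/-!
# P155, block B1/B1b: the plane inverse Kasteleyn profile

`Apl` is a one-dimensional integral over `[0, π/2]` with `sinh σ = sin t`.
-/

namespace Vale.Agent.P155.B1b

open Real intervalIntegral MeasureTheory

/-- `sinh σ = sin t` -/
noncomputable def sig (t : ℝ) : ℝ := Real.arsinh (Real.sin t)

/-- `cosh σ` -/
noncomputable def ch (t : ℝ) : ℝ := Real.cosh (sig t)

theorem sinh_sig (t : ℝ) : Real.sinh (sig t) = Real.sin t := Real.sinh_arsinh _

theorem ch_sq (t : ℝ) : ch t ^ 2 = 1 + Real.sin t ^ 2 := by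
  have h := Real.cosh_sq (sig t)
  rw [sinh_sig] at h
  unfold ch
  linarith

theorem ch_one_le (t : ℝ) : 1 ≤ ch t := Real.one_le_cosh _

theorem ch_pos (t : ℝ) : 0 < ch t := lt_of_lt_of_le one_pos (ch_one_le t)

theorem ch_ne (t : ℝ) : ch t ≠ 0 := (ch_pos t).ne'

theorem hasDerivAt_sig (t : ℝ) : HasDerivAt sig (Real.cos t / ch t) t := by
  have h := (Real.hasDerivAt_arsinh (Real.sin t)).comp t (Real.hasDerivAt_sin t)
  have e : (√(1 + Real.sin t ^ 2))⁻¹ * Real.cos t = Real.cos t / ch t := by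
    unfold ch sig
    rw [Real.cosh_arsinh]
    field_simp
  rw [e] at h
  exact h

theorem hasDerivAt_ch (t : ℝ) : HasDerivAt ch (Real.sin t * (Real.cos t / ch t)) t := by
  have h := (hasDerivAt_sig t).cosh
  rw [sinh_sig] at h
  exact h

theorem continuous_sig : Continuous sig := Real.continuous_arsinh.comp Real.continuous_sin

theorem continuous_ch : Continuous ch := Real.continuous_cosh.comp continuous_sig

/-- `e^{-yσ}/cosh σ` -/
noncomputable def F (y t : ℝ) : ℝ := Real.exp (-(y * sig t)) / ch t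

/-- the derivative of `F` in `t` -/
noncomputable def F1 (y t : ℝ) : ℝ :=
  -(Real.cos t / ch t) * (y + Real.sin t / ch t) * F y t

/-- the second derivative of `F` in `t` -/
noncomputable def F2 (y t : ℝ) : ℝ :=
  (2 * Real.sin t / ch t ^ 3) * (y + Real.sin t / ch t) * F y t
    - (Real.cos t / ch t) ^ 2 / ch t ^ 2 * F y t
    + (Real.cos t / ch t) ^ 2 * (y + Real.sin t / ch t) ^ 2 * F y t

theorem hasDerivAt_F (y t : ℝ) : HasDerivAt (F y) (F1 y t) t := by
  have h1 : HasDerivAt (fun t => Real.exp (-(y * sig t)))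
      (Real.exp (-(y * sig t)) * (-(y * (Real.cos t / ch t)))) t :=
    (((hasDerivAt_sig t).const_mul y).neg).exp
  have h2 : HasDerivAt (F y) _ t := h1.div (hasDerivAt_ch t) (ch_ne t)
  refine h2.congr_deriv ?_
  unfold F1 F
  have := ch_ne t
  field_simp
  ring

theorem hasDerivAt_s1 (t : ℝ) :
    HasDerivAt (fun t => Real.cos t / ch t) (-(2 * Real.sin t / ch t ^ 3)) t := by
  have h : HasDerivAt (fun t => Real.cos t / ch t) _ t :=
    (Real.hasDerivAt_cos t).div (hasDerivAt_ch t) (ch_ne t)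
  refine h.congr_deriv ?_
  have hc := ch_ne t
  have e1 := ch_sq t
  have e2 := Real.sin_sq_add_cos_sq t
  field_simp
  have : ch t ^ 2 = 2 - Real.cos t ^ 2 := by rw [e1]; linarith
  rw [this]
  ring

theorem hasDerivAt_T (t : ℝ) :
    HasDerivAt (fun t => Real.sin t / ch t) ((Real.cos t / ch t) / ch t ^ 2) t := by
  have h : HasDerivAt (fun t => Real.sin t / ch t) _ t :=
    (Real.hasDerivAt_sin t).div (hasDerivAt_ch t) (ch_ne t)
  refine h.congr_deriv ?_
  have hc := ch_ne t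
  have e1 := ch_sq t
  field_simp
  rw [e1]
  ring

theorem hasDerivAt_F1 (y t : ℝ) : HasDerivAt (F1 y) (F2 y t) t := by
  have h' : HasDerivAt (F1 y) _ t :=
    ((hasDerivAt_s1 t).neg.mul ((hasDerivAt_T t).const_add y)).mul (hasDerivAt_F y t)
  refine h'.congr_deriv ?_
  unfold F2 F1
  simp only [Pi.neg_apply, neg_neg, Pi.mul_apply]
  ring

theorem continuous_F (y : ℝ) : Continuous (F y) :=
  continuous_iff_continuousAt.2 fun t => (hasDerivAt_F y t).continuousAt

theorem continuous_F1 (y : ℝ) : Continuous (F1 y) :=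
  continuous_iff_continuousAt.2 fun t => (hasDerivAt_F1 y t).continuousAt

theorem continuous_F2 (y : ℝ) : Continuous (F2 y) := by
  unfold F2
  have h1 := continuous_F y
  have h2 := continuous_ch
  have h3 := ch_ne
  have h4 : ∀ t, ch t ^ 3 ≠ 0 := fun t => pow_ne_zero _ (h3 t)
  have h5 : ∀ t, ch t ^ 2 ≠ 0 := fun t => pow_ne_zero _ (h3 t)
  fun_prop (disch := assumption)

/-! ## the basic bound -/

theorem sinh_le_two_mul {x : ℝ} (h0 : 0 ≤ x) (h1 : x ≤ 1 / 2) : Real.sinh x ≤ 2 * x := by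
  rw [Real.sinh_eq]
  have e1 : Real.exp x ≤ 1 / (1 - x) := Real.exp_bound_div_one_sub_of_interval h0 (by linarith)
  have e2 : 1 - x ≤ Real.exp (-x) := by
    have := Real.add_one_le_exp (-x)
    linarith
  have e3 : 1 / (1 - x) ≤ 1 + 2 * x := by
    rw [div_le_iff₀ (by linarith)]
    nlinarith
  linarith

theorem half_le_arsinh {s : ℝ} (h0 : 0 ≤ s) (h1 : s ≤ 1) : s / 2 ≤ Real.arsinh s := by
  rw [← Real.sinh_le_sinh, Real.sinh_arsinh]
  have := sinh_le_two_mul (x := s / 2) (by linarith) (by linarith)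
  linarith

theorem F_pos (y t : ℝ) : 0 < F y t := div_pos (Real.exp_pos _) (ch_pos t)

theorem F_le {y t : ℝ} (hy : 0 ≤ y) (h0 : 0 ≤ Real.sin t) :
    F y t ≤ Real.exp (-(y * Real.sin t / 2)) := by
  unfold F
  have h1 : Real.sin t ≤ 1 := Real.sin_le_one t
  have h2 := half_le_arsinh h0 h1
  have h3 : Real.exp (-(y * sig t)) ≤ Real.exp (-(y * Real.sin t / 2)) := by
    apply Real.exp_le_exp.2
    have : y * (Real.sin t / 2) ≤ y * sig t := mul_le_mul_of_nonneg_left h2 hy
    linarith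
  calc Real.exp (-(y * sig t)) / ch t ≤ Real.exp (-(y * sig t)) :=
        div_le_self (Real.exp_pos _).le (ch_one_le t)
    _ ≤ _ := h3

theorem key_bound {y t : ℝ} (hy : 0 ≤ y) (h0 : 0 ≤ Real.sin t) :
    |y ^ 2 * F y t - F2 y t| ≤ 16 := by
  set S := Real.sin t with hS
  set C := ch t with hC
  set T := S / C with hT
  set q := (Real.cos t / C) ^ 2 with hq
  have hC1 : 1 ≤ C := ch_one_le t
  have hCpos : 0 < C := ch_pos t
  have hCsq : C ^ 2 = 1 + S ^ 2 := ch_sq t
  have hS1 : S ≤ 1 := Real.sin_le_one t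
  have hT0 : 0 ≤ T := div_nonneg h0 hCpos.le
  have hTS : T ≤ S := div_le_self h0 hC1
  have hq' : q = (1 - S ^ 2) / (1 + S ^ 2) := by
    rw [hq, div_pow, hCsq]
    congr 1
    have := Real.sin_sq_add_cos_sq t
    rw [← hS] at this
    linarith
  have hSpos : 0 < 1 + S ^ 2 := by positivity
  have hq0 : 0 ≤ q := sq_nonneg _
  have hq1 : q ≤ 1 := by
    rw [hq', div_le_one hSpos]
    nlinarith [sq_nonneg S]
  have hq2 : 1 - q ≤ 2 * S ^ 2 := by
    have : 1 - q = 2 * S ^ 2 / (1 + S ^ 2) := by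
      rw [hq']; field_simp; ring
    rw [this]
    apply div_le_self (by positivity)
    nlinarith [sq_nonneg S]
  have hC3 : 1 ≤ C ^ 3 := one_le_pow₀ hC1
  have hC2 : 1 ≤ C ^ 2 := one_le_pow₀ hC1
  set r := 2 * S / C ^ 3 with hr
  have hr0 : 0 ≤ r := by positivity
  have hr1 : r ≤ 2 * S := div_le_self (by linarith) hC3
  have hE : y ^ 2 * F y t - F2 y t =
      (y ^ 2 - q * (y + T) ^ 2 - r * (y + T) + q / C ^ 2) * F y t := by
    unfold F2
    rw [← hC, ← hS]
    ring
  rw [hE, abs_mul, abs_of_pos (F_pos y t)]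
  set v := y * S with hv
  have hv0 : 0 ≤ v := mul_nonneg hy h0
  have hqC : q / C ^ 2 ≤ 1 := (div_le_self hq0 hC2).trans hq1
  have hqC0 : 0 ≤ q / C ^ 2 := by positivity
  have hyT : 0 ≤ y + T := by positivity
  have b1 : q * (y + T) ^ 2 ≤ (y + T) ^ 2 := by
    have := mul_le_mul_of_nonneg_right hq1 (sq_nonneg (y + T))
    linarith
  have b2 : q * y ^ 2 ≤ q * (y + T) ^ 2 := by
    apply mul_le_mul_of_nonneg_left _ hq0
    nlinarith
  have b3 : (1 - q) * y ^ 2 ≤ 2 * S ^ 2 * y ^ 2 :=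
    mul_le_mul_of_nonneg_right hq2 (sq_nonneg y)
  have b4 : r * (y + T) ≤ 2 * S * (y + T) := mul_le_mul_of_nonneg_right hr1 hyT
  have b5 : 0 ≤ r * (y + T) := mul_nonneg hr0 hyT
  have b6 : S * T ≤ 1 := by nlinarith
  have b7 : T ^ 2 ≤ 1 := by nlinarith
  have b8 : y * T ≤ v := mul_le_mul_of_nonneg_left hTS hy
  have hb : |y ^ 2 - q * (y + T) ^ 2 - r * (y + T) + q / C ^ 2| ≤
      16 * Real.exp (v / 2) := by
    have hexp := Real.quadratic_le_exp_of_nonneg (x := v / 2) (by positivity)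
    have h16 : 2 * v ^ 2 + 4 * v + 4 ≤ 16 * Real.exp (v / 2) := by
      have : (v / 2) ^ 2 = v ^ 2 / 4 := by ring
      rw [this] at hexp
      linarith
    refine le_trans ?_ h16
    have b1' : q * (y + T) ^ 2 ≤ y ^ 2 + 2 * (y * T) + T ^ 2 := by
      refine b1.trans (le_of_eq ?_); ring
    have b4' : r * (y + T) ≤ 2 * v + 2 * (S * T) := by
      refine b4.trans (le_of_eq ?_); rw [hv]; ring
    have b3' : (1 - q) * y ^ 2 ≤ 2 * v ^ 2 := by
      refine b3.trans (le_of_eq ?_); rw [hv]; ring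
    have b3'' : (1 - q) * y ^ 2 = y ^ 2 - q * y ^ 2 := by ring
    have hv2 : 0 ≤ v ^ 2 := sq_nonneg v
    rw [abs_le]
    constructor <;> linarith
  have hF := F_le hy h0
  rw [← hS] at hF
  calc |y ^ 2 - q * (y + T) ^ 2 - r * (y + T) + q / C ^ 2| * F y t
      ≤ 16 * Real.exp (v / 2) * Real.exp (-(y * S / 2)) := by
        apply mul_le_mul hb hF (F_pos y t).le (by positivity)
    _ = 16 := by
        rw [mul_assoc, ← Real.exp_add]
        have : v / 2 + -(y * S / 2) = 0 := by rw [hv]; ring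
        rw [this, Real.exp_zero, mul_one]

/-! ## two integrations by parts -/

theorem cos_odd_mul {k : ℤ} (hk : Odd k) : Real.cos ((k : ℝ) * (π / 2)) = 0 := by
  obtain ⟨m, rfl⟩ := hk
  rw [Real.cos_eq_zero_iff]
  exact ⟨m, by push_cast; ring⟩

theorem sin_even_mul {k : ℤ} (hk : Even k) : Real.sin ((k : ℝ) * (π / 2)) = 0 := by
  obtain ⟨m, rfl⟩ := hk
  rw [Real.sin_eq_zero_iff]
  exact ⟨m, by push_cast; ring⟩

theorem ch_zero : ch 0 = 1 := by
  unfold ch sig
  simp

theorem F_zero (y : ℝ) : F y 0 = 1 := by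
  unfold F sig
  simp [ch_zero]

theorem F1_zero (y : ℝ) : F1 y 0 = -y := by
  unfold F1
  simp [F_zero, ch_zero]

theorem F1_end (y : ℝ) : F1 y (π / 2) = 0 := by
  unfold F1
  simp

theorem ibp_sin {k : ℤ} (hk : Odd k) (y : ℝ) :
    ∫ t in (0 : ℝ)..(π / 2), ((k : ℝ) ^ 2 * (Real.sin (k * t) * F y t) + Real.sin (k * t) * F2 y t)
      = k := by
  have hP : ∀ t ∈ Set.uIcc (0 : ℝ) (π / 2), HasDerivAt
      (fun t => -(k : ℝ) * (Real.cos (k * t) * F y t) + Real.sin (k * t) * F1 y t)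
      ((k : ℝ) ^ 2 * (Real.sin (k * t) * F y t) + Real.sin (k * t) * F2 y t) t := by
    intro t _
    have hl : HasDerivAt (fun t : ℝ => (k : ℝ) * t) k t := by
      simpa using (hasDerivAt_id t).const_mul (k : ℝ)
    have h1 := ((hl.cos).mul (hasDerivAt_F y t)).const_mul (-(k : ℝ))
    have h2 := (hl.sin).mul (hasDerivAt_F1 y t)
    exact (h1.add h2).congr_deriv (by ring)
  rw [integral_eq_sub_of_hasDerivAt hP]
  · rw [cos_odd_mul hk, F1_end]
    simp [F_zero]
  · apply Continuous.intervalIntegrable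
    have h1 := continuous_F y
    have h2 := continuous_F2 y
    fun_prop

theorem ibp_cos {k : ℤ} (hk : Even k) (y : ℝ) :
    ∫ t in (0 : ℝ)..(π / 2), ((k : ℝ) ^ 2 * (Real.cos (k * t) * F y t) + Real.cos (k * t) * F2 y t)
      = y := by
  have hP : ∀ t ∈ Set.uIcc (0 : ℝ) (π / 2), HasDerivAt
      (fun t => (k : ℝ) * (Real.sin (k * t) * F y t) + Real.cos (k * t) * F1 y t)
      ((k : ℝ) ^ 2 * (Real.cos (k * t) * F y t) + Real.cos (k * t) * F2 y t) t := by
    intro t _
    have hl : HasDerivAt (fun t : ℝ => (k : ℝ) * t) k t := by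
      simpa using (hasDerivAt_id t).const_mul (k : ℝ)
    have h1 := ((hl.sin).mul (hasDerivAt_F y t)).const_mul (k : ℝ)
    have h2 := (hl.cos).mul (hasDerivAt_F1 y t)
    exact (h1.add h2).congr_deriv (by ring)
  rw [integral_eq_sub_of_hasDerivAt hP]
  · rw [sin_even_mul hk, F1_end]
    simp [F1_zero]
  · apply Continuous.intervalIntegrable
    have h1 := continuous_F y
    have h2 := continuous_F2 y
    fun_prop

/-- the error integral -/
theorem err_bound {g : ℝ → ℝ} (hg : ∀ t, |g t| ≤ 1) {y : ℝ} (hy : 0 ≤ y) :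
    |∫ t in (0 : ℝ)..(π / 2), g t * (y ^ 2 * F y t - F2 y t)| ≤ 8 * π := by
  have h := intervalIntegral.norm_integral_le_of_norm_le_const
    (a := (0 : ℝ)) (b := π / 2) (C := 16) (f := fun t => g t * (y ^ 2 * F y t - F2 y t)) (by
      intro t ht
      rw [Set.uIoc_of_le (by positivity)] at ht
      have hs : 0 ≤ Real.sin t :=
        Real.sin_nonneg_of_nonneg_of_le_pi ht.1.le (by linarith [ht.2, Real.pi_pos])
      rw [Real.norm_eq_abs, abs_mul]
      calc |g t| * |y ^ 2 * F y t - F2 y t| ≤ 1 * 16 :=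
            mul_le_mul (hg t) (key_bound hy hs) (abs_nonneg _) zero_le_one
        _ = 16 := by norm_num)
  rw [Real.norm_eq_abs, sub_zero, abs_of_pos (by positivity : (0 : ℝ) < π / 2)] at h
  linarith

/-- the basic integrals -/
noncomputable def Is (k : ℤ) (y : ℝ) : ℝ := ∫ t in (0 : ℝ)..(π / 2), Real.sin (k * t) * F y t

/-- the basic integrals -/
noncomputable def Ic (k : ℤ) (y : ℝ) : ℝ := ∫ t in (0 : ℝ)..(π / 2), Real.cos (k * t) * F y t

theorem Is_asymp {k : ℤ} (hk : Odd k) {y : ℝ} (hy : 0 ≤ y) :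
    |((k : ℝ) ^ 2 + y ^ 2) * Is k y - k| ≤ 8 * π := by
  have h1 := continuous_F y
  have h2 := continuous_F2 y
  have i1 : IntervalIntegrable (fun t => Real.sin (k * t) * F y t) volume 0 (π / 2) := by
    apply Continuous.intervalIntegrable; fun_prop
  have i2 : IntervalIntegrable (fun t => Real.sin (k * t) * F2 y t) volume 0 (π / 2) := by
    apply Continuous.intervalIntegrable; fun_prop
  have h := ibp_sin hk y
  rw [intervalIntegral.integral_add (i1.const_mul _) i2, intervalIntegral.integral_const_mul] at h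
  have h3 : ∫ t in (0 : ℝ)..(π / 2), Real.sin (k * t) * (y ^ 2 * F y t - F2 y t) =
      y ^ 2 * (∫ t in (0 : ℝ)..(π / 2), Real.sin (k * t) * F y t) -
        ∫ t in (0 : ℝ)..(π / 2), Real.sin (k * t) * F2 y t := by
    rw [← intervalIntegral.integral_const_mul, ← intervalIntegral.integral_sub (i1.const_mul _) i2]
    apply intervalIntegral.integral_congr
    intro t _
    simp only
    ring
  have e : ((k : ℝ) ^ 2 + y ^ 2) * Is k y - k =
      ∫ t in (0 : ℝ)..(π / 2), Real.sin (k * t) * (y ^ 2 * F y t - F2 y t) := by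
    rw [h3]
    unfold Is
    linarith
  rw [e]
  exact err_bound (fun t => Real.abs_sin_le_one _) hy

theorem Ic_asymp {k : ℤ} (hk : Even k) {y : ℝ} (hy : 0 ≤ y) :
    |((k : ℝ) ^ 2 + y ^ 2) * Ic k y - y| ≤ 8 * π := by
  have h1 := continuous_F y
  have h2 := continuous_F2 y
  have i1 : IntervalIntegrable (fun t => Real.cos (k * t) * F y t) volume 0 (π / 2) := by
    apply Continuous.intervalIntegrable; fun_prop
  have i2 : IntervalIntegrable (fun t => Real.cos (k * t) * F2 y t) volume 0 (π / 2) := by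
    apply Continuous.intervalIntegrable; fun_prop
  have h := ibp_cos hk y
  rw [intervalIntegral.integral_add (i1.const_mul _) i2, intervalIntegral.integral_const_mul] at h
  have h3 : ∫ t in (0 : ℝ)..(π / 2), Real.cos (k * t) * (y ^ 2 * F y t - F2 y t) =
      y ^ 2 * (∫ t in (0 : ℝ)..(π / 2), Real.cos (k * t) * F y t) -
        ∫ t in (0 : ℝ)..(π / 2), Real.cos (k * t) * F2 y t := by
    rw [← intervalIntegral.integral_const_mul, ← intervalIntegral.integral_sub (i1.const_mul _) i2]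
    apply intervalIntegral.integral_congr
    intro t _
    simp only
    ring
  have e : ((k : ℝ) ^ 2 + y ^ 2) * Ic k y - y =
      ∫ t in (0 : ℝ)..(π / 2), Real.cos (k * t) * (y ^ 2 * F y t - F2 y t) := by
    rw [h3]
    unfold Ic
    linarith
  rw [e]
  exact err_bound (fun t => Real.abs_cos_le_one _) hy

end Vale.Agent.P155.B1b
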