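import Vale.Agent.P155.B1b.Plane

/-!
# P155, block B1/B1b: `IsPlane Apl`
-/

namespace Vale.Agent.P155.B1b

open Real intervalIntegral MeasureTheory Finset

/-- The plane profile. -/
noncomputable def Apl (z : Pt) : ℝ :=
  if Odd z.1 then (1 / π) * Is z.1 |(z.2 : ℝ)|
  else ((z.2.sign : ℤ) : ℝ) * ((1 / π) * Ic z.1 |(z.2 : ℝ)|)

/-! ## recurrences -/

theorem F_rec (y t : ℝ) : F (y + 1) t - F (y - 1) t = -(2 * Real.sin t) * F y t := by
  unfold F
  have e1 : -((y + 1) * sig t) = -(y * sig t) + -(sig t) := by ring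
  have e2 : -((y - 1) * sig t) = -(y * sig t) + sig t := by ring
  rw [e1, e2, Real.exp_add, Real.exp_add, ← sinh_sig, Real.sinh_eq]
  ring

theorem F_rec_zero (t : ℝ) : Real.sin t * F 0 t + F 1 t = 1 := by
  unfold F
  rw [← sinh_sig, Real.sinh_eq]
  have hc : ch t = (Real.exp (sig t) + Real.exp (-sig t)) / 2 := Real.cosh_eq _
  have hp := ch_ne t
  rw [zero_mul, neg_zero, Real.exp_zero, one_mul]
  field_simp
  rw [hc]
  ring

theorem cont_s (k : ℤ) (y : ℝ) : Continuous (fun t : ℝ => Real.sin (k * t) * F y t) := by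
  have := continuous_F y
  fun_prop

theorem cont_c (k : ℤ) (y : ℝ) : Continuous (fun t : ℝ => Real.cos (k * t) * F y t) := by
  have := continuous_F y
  fun_prop

/-- the relation at even points, `y` any real -/
theorem rec_even (k : ℤ) (y : ℝ) :
    Is (k + 1) y - Is (k - 1) y + (Ic k (y + 1) - Ic k (y - 1)) = 0 := by
  unfold Is Ic
  rw [← intervalIntegral.integral_sub ((cont_s _ _).intervalIntegrable _ _)
      ((cont_s _ _).intervalIntegrable _ _),
    ← intervalIntegral.integral_sub ((cont_c _ _).intervalIntegrable _ _)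
      ((cont_c _ _).intervalIntegrable _ _),
    ← intervalIntegral.integral_add
      (Continuous.intervalIntegrable (by have := cont_s (k + 1) y; have := cont_s (k - 1) y; fun_prop) _ _)
      (Continuous.intervalIntegrable (by
        have := cont_c k (y + 1); have := cont_c k (y - 1); fun_prop) _ _)]
  have : ∀ t : ℝ, Real.sin (((k + 1 : ℤ) : ℝ) * t) * F y t - Real.sin (((k - 1 : ℤ) : ℝ) * t) * F y t
      + (Real.cos ((k : ℝ) * t) * F (y + 1) t - Real.cos ((k : ℝ) * t) * F (y - 1) t) = 0 := by
    intro t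
    have h := F_rec y t
    have e1 : ((k + 1 : ℤ) : ℝ) * t = k * t + t := by push_cast; ring
    have e2 : ((k - 1 : ℤ) : ℝ) * t = k * t - t := by push_cast; ring
    rw [e1, e2, Real.sin_add, Real.sin_sub, ← mul_sub (Real.cos ((k : ℝ) * t)), h]
    ring
  simp only [this, intervalIntegral.integral_zero]

/-- the relation at odd points -/
theorem rec_odd (k : ℤ) (y : ℝ) :
    Ic (k + 1) y - Ic (k - 1) y = Is k (y + 1) - Is k (y - 1) := by
  unfold Is Ic
  rw [← intervalIntegral.integral_sub ((cont_c _ _).intervalIntegrable _ _)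
      ((cont_c _ _).intervalIntegrable _ _),
    ← intervalIntegral.integral_sub ((cont_s _ _).intervalIntegrable _ _)
      ((cont_s _ _).intervalIntegrable _ _)]
  apply intervalIntegral.integral_congr
  intro t _
  have h := F_rec y t
  have e1 : ((k + 1 : ℤ) : ℝ) * t = k * t + t := by push_cast; ring
  have e2 : ((k - 1 : ℤ) : ℝ) * t = k * t - t := by push_cast; ring
  simp only
  rw [e1, e2, Real.cos_add, Real.cos_sub, ← mul_sub (Real.sin ((k : ℝ) * t)), h]
  ring

/-- the relation on the axis -/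
theorem rec_axis {k : ℤ} (hk : Even k) :
    Is (k + 1) 0 - Is (k - 1) 0 + 2 * Ic k 1 = if k = 0 then π else 0 := by
  have h1 : Is (k + 1) 0 - Is (k - 1) 0 + 2 * Ic k 1 =
      ∫ t in (0 : ℝ)..(π / 2), 2 * Real.cos (k * t) := by
    unfold Is Ic
    rw [← intervalIntegral.integral_const_mul,
      ← intervalIntegral.integral_sub ((cont_s _ _).intervalIntegrable _ _)
        ((cont_s _ _).intervalIntegrable _ _),
      ← intervalIntegral.integral_add
        (Continuous.intervalIntegrable (by
          have := cont_s (k + 1) 0; have := cont_s (k - 1) 0; fun_prop) _ _)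
        (Continuous.intervalIntegrable (by have := cont_c k 1; fun_prop) _ _)]
    apply intervalIntegral.integral_congr
    intro t _
    have h := F_rec_zero t
    have e1 : ((k + 1 : ℤ) : ℝ) * t = k * t + t := by push_cast; ring
    have e2 : ((k - 1 : ℤ) : ℝ) * t = k * t - t := by push_cast; ring
    simp only
    rw [e1, e2, Real.sin_add, Real.sin_sub]
    linear_combination (2 * Real.cos ((k : ℝ) * t)) * h
  rw [h1, intervalIntegral.integral_const_mul]
  by_cases h0 : k = 0
  · subst h0
    simp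
    ring
  · rw [if_neg h0]
    have hk' : (k : ℝ) ≠ 0 := by exact_mod_cast h0
    have : ∫ t in (0 : ℝ)..(π / 2), Real.cos (k * t) = 0 := by
      have hd : ∀ t ∈ Set.uIcc (0 : ℝ) (π / 2),
          HasDerivAt (fun t : ℝ => Real.sin (k * t) / k) (Real.cos (k * t)) t := by
        intro t _
        have hl : HasDerivAt (fun t : ℝ => (k : ℝ) * t) k t := by
          simpa using (hasDerivAt_id t).const_mul (k : ℝ)
        exact ((hl.sin).div_const (k : ℝ)).congr_deriv (by field_simp)
      rw [integral_eq_sub_of_hasDerivAt hd]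
      · rw [sin_even_mul hk]; simp
      · apply Continuous.intervalIntegrable; fun_prop
    rw [this, mul_zero]

/-! ## the two relations for `Apl` -/

theorem Apl_odd {x y : ℤ} (hx : Odd x) : Apl (x, y) = (1 / π) * Is x |(y : ℝ)| := by
  simp [Apl, hx]

theorem Apl_even {x y : ℤ} (hx : Even x) :
    Apl (x, y) = ((y.sign : ℤ) : ℝ) * ((1 / π) * Ic x |(y : ℝ)|) := by
  have : ¬ Odd x := Int.not_odd_iff_even.2 hx
  simp [Apl, this]

theorem Apl_rel_even {x y : ℤ} (hx : Even x) (hy : Even y) :
    Apl (x + 1, y) - Apl (x - 1, y) + (Apl (x, y + 1) - Apl (x, y - 1)) =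
      if x = 0 ∧ y = 0 then 1 else 0 := by
  have ho1 : Odd (x + 1) := hx.add_one
  have ho2 : Odd (x - 1) := hx.sub_odd odd_one
  rw [Apl_odd ho1, Apl_odd ho2, Apl_even hx, Apl_even hx]
  rcases lt_trichotomy y 0 with h | h | h
  · have h2 : y + 1 < 0 := by
      obtain ⟨m, rfl⟩ := hy; omega
    have h3 : y - 1 < 0 := by omega
    have hyR : (y : ℝ) < 0 := by exact_mod_cast h
    have h2R : ((y + 1 : ℤ) : ℝ) < 0 := by exact_mod_cast h2
    have h3R : ((y - 1 : ℤ) : ℝ) < 0 := by exact_mod_cast h3
    rw [Int.sign_eq_neg_one_of_neg h2, Int.sign_eq_neg_one_of_neg h3, abs_of_neg hyR,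
      abs_of_neg h2R, abs_of_neg h3R, if_neg (by omega)]
    have e1 : -((y + 1 : ℤ) : ℝ) = -(y : ℝ) - 1 := by push_cast; ring
    have e2 : -((y - 1 : ℤ) : ℝ) = -(y : ℝ) + 1 := by push_cast; ring
    rw [e1, e2]
    have := rec_even x (-(y : ℝ))
    push_cast
    linear_combination (1 / π) * this
  · subst h
    have := rec_axis hx
    have e1 : |((0 + 1 : ℤ) : ℝ)| = 1 := by norm_num
    have e2 : |((0 - 1 : ℤ) : ℝ)| = 1 := by norm_num
    rw [e1, e2]
    have e3 : (((0 + 1 : ℤ).sign : ℤ) : ℝ) = 1 := by norm_num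
    have e4 : (((0 - 1 : ℤ).sign : ℤ) : ℝ) = -1 := by norm_num
    rw [e3, e4]
    simp only [Int.cast_zero, abs_zero, and_true]
    have hpi := Real.pi_ne_zero
    have h5 : (1 / π) * (if x = 0 then π else 0) = if x = 0 then (1 : ℝ) else 0 := by
      split_ifs
      · field_simp
      · ring
    rw [← h5, ← this]
    ring
  · have h2 : 0 < y - 1 := by
      obtain ⟨m, rfl⟩ := hy; omega
    have h3 : 0 < y + 1 := by omega
    have hyR : 0 < (y : ℝ) := by exact_mod_cast h
    have h2R : 0 < ((y - 1 : ℤ) : ℝ) := by exact_mod_cast h2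
    have h3R : 0 < ((y + 1 : ℤ) : ℝ) := by exact_mod_cast h3
    rw [Int.sign_eq_one_of_pos h2, Int.sign_eq_one_of_pos h3, abs_of_pos hyR,
      abs_of_pos h2R, abs_of_pos h3R, if_neg (by omega)]
    have := rec_even x (y : ℝ)
    push_cast
    linear_combination (1 / π) * this

theorem Apl_rel_odd {x y : ℤ} (hx : Odd x) (hy : Odd y) :
    Apl (x + 1, y) - Apl (x - 1, y) = Apl (x, y + 1) - Apl (x, y - 1) := by
  have ho1 : Even (x + 1) := hx.add_one
  have ho2 : Even (x - 1) := hx.sub_odd odd_one
  rw [Apl_even ho1, Apl_even ho2, Apl_odd hx, Apl_odd hx]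
  rcases lt_trichotomy y 0 with h | h | h
  · have h2 : y + 1 ≤ 0 := by omega
    have h3 : y - 1 < 0 := by omega
    have hyR : (y : ℝ) < 0 := by exact_mod_cast h
    have h2R : ((y + 1 : ℤ) : ℝ) ≤ 0 := by exact_mod_cast h2
    have h3R : ((y - 1 : ℤ) : ℝ) < 0 := by exact_mod_cast h3
    rw [Int.sign_eq_neg_one_of_neg h, abs_of_neg hyR,
      abs_of_nonpos h2R, abs_of_neg h3R]
    have e1 : -((y + 1 : ℤ) : ℝ) = -(y : ℝ) - 1 := by push_cast; ring
    have e2 : -((y - 1 : ℤ) : ℝ) = -(y : ℝ) + 1 := by push_cast; ring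
    rw [e1, e2]
    have := rec_odd x (-(y : ℝ))
    push_cast
    linear_combination (-(1 / π)) * this
  · subst h
    simp at hy
  · have h2 : 0 ≤ y - 1 := by omega
    have h3 : 0 < y + 1 := by omega
    have hyR : 0 < (y : ℝ) := by exact_mod_cast h
    have h2R : 0 ≤ ((y - 1 : ℤ) : ℝ) := by exact_mod_cast h2
    have h3R : 0 < ((y + 1 : ℤ) : ℝ) := by exact_mod_cast h3
    rw [Int.sign_eq_one_of_pos h, abs_of_pos hyR,
      abs_of_nonneg h2R, abs_of_pos h3R]
    have := rec_odd x (y : ℝ)
    push_cast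
    linear_combination (1 / π) * this

/-! ## asymptotics -/

theorem nsq_pos {z : Pt} (hz : Odd (z.1 + z.2)) : 0 < nsq z := by
  unfold nsq
  have : z.1 ≠ 0 ∨ z.2 ≠ 0 := by
    by_contra h
    push Not at h
    rw [h.1, h.2] at hz
    simp at hz
  rcases this with h | h
  · have : (z.1 : ℝ) ≠ 0 := by exact_mod_cast h
    positivity
  · have : (z.2 : ℝ) ≠ 0 := by exact_mod_cast h
    positivity

theorem Apl_asymp (z : Pt) (hz : Odd (z.1 + z.2)) : |Apl z - Alead z| ≤ 8 / nsq z := by
  have hn := nsq_pos hz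
  have hpi := Real.pi_pos
  obtain ⟨x, y⟩ := z
  have habs : |(y : ℝ)| ^ 2 = (y : ℝ) ^ 2 := sq_abs _
  by_cases hx : Odd x
  · have h := Is_asymp hx (abs_nonneg (y : ℝ))
    rw [habs] at h
    rw [Apl_odd hx]
    unfold Alead
    simp only [hx, if_true]
    have e : (1 / π) * Is x |(y : ℝ)| - (x : ℝ) / (π * nsq (x, y)) =
        (((x : ℝ) ^ 2 + (y : ℝ) ^ 2) * Is x |(y : ℝ)| - x) / (π * nsq (x, y)) := by
      have : nsq (x, y) = (x : ℝ) ^ 2 + (y : ℝ) ^ 2 := rfl
      rw [this] at hn ⊢
      have hn' := hn.ne'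
      field_simp
    rw [e, abs_div, abs_of_pos (by positivity : 0 < π * nsq (x, y)), div_le_div_iff₀ (by positivity) hn]
    nlinarith
  · have hx' : Even x := Int.not_odd_iff_even.1 hx
    have hy : Odd y := by
      rcases Int.even_or_odd y with h | h
      · exact absurd hz (Int.not_odd_iff_even.2 (hx'.add h))
      · exact h
    have hy0 : y ≠ 0 := by rintro rfl; simp at hy
    have h := Ic_asymp hx' (abs_nonneg (y : ℝ))
    rw [habs] at h
    rw [Apl_even hx']
    unfold Alead
    simp only [hx, if_false]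
    have hs : ((y.sign : ℤ) : ℝ) * |(y : ℝ)| = y := by
      have := Int.sign_mul_abs y
      exact_mod_cast this
    have hs1 : |((y.sign : ℤ) : ℝ)| = 1 := by
      rcases lt_or_gt_of_ne hy0 with h | h
      · rw [Int.sign_eq_neg_one_of_neg h]; norm_num
      · rw [Int.sign_eq_one_of_pos h]; norm_num
    have e : ((y.sign : ℤ) : ℝ) * ((1 / π) * Ic x |(y : ℝ)|) - (y : ℝ) / (π * nsq (x, y)) =
        ((y.sign : ℤ) : ℝ) *
          ((((x : ℝ) ^ 2 + (y : ℝ) ^ 2) * Ic x |(y : ℝ)| - |(y : ℝ)|) / (π * nsq (x, y))) := by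
      have : nsq (x, y) = (x : ℝ) ^ 2 + (y : ℝ) ^ 2 := rfl
      rw [this] at hn ⊢
      have hn' := hn.ne'
      field_simp
      linear_combination hs
    rw [e, abs_mul, hs1, one_mul, abs_div, abs_of_pos (by positivity : 0 < π * nsq (x, y)),
      div_le_div_iff₀ (by positivity) hn]
    nlinarith

/-! ## the matrix relations -/

theorem sg_sq (y : ℤ) : sg y * sg y = 1 := by
  unfold sg; split_ifs <;> norm_num

theorem sg_add_one (y : ℤ) : sg (y + 1) = - sg y := by
  unfold sg
  by_cases h : Even y
  · have : ¬ Even (y + 1) := by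
      rw [Int.even_add_one]; exact not_not.2 h
    simp [h, this]
  · have : Even (y + 1) := by
      rw [Int.even_add_one]; exact h
    simp [h, this]

theorem sg_sub_one (y : ℤ) : sg (y - 1) = - sg y := by
  have := sg_add_one (y - 1)
  rw [sub_add_cancel] at this
  rw [this, neg_neg]

theorem sg_add (x y : ℤ) : sg (x + y) = sg x * sg y := by
  unfold sg
  by_cases hx : Even x <;> by_cases hy : Even y <;> simp [Int.even_add, hx, hy]

theorem sum_nbrs (v : Pt) (f : Pt → ℝ) :
    ∑ b ∈ nbrs v, f b = f (v.1 + 1, v.2) + f (v.1 - 1, v.2) + f (v.1, v.2 + 1) + f (v.1, v.2 - 1) := by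
  unfold nbrs
  rw [Finset.sum_insert, Finset.sum_insert, Finset.sum_insert, Finset.sum_singleton]
  · ring
  · simp; omega
  · simp
  · simp; omega

theorem K_right (w : Pt) : K w (w.1 + 1, w.2) = 1 := by simp [K]

theorem K_left (w : Pt) : K w (w.1 - 1, w.2) = -1 := by
  unfold K
  rw [if_neg (by simp; omega), if_pos rfl]

theorem K_up (w : Pt) : K w (w.1, w.2 + 1) = sg w.2 := by
  unfold K
  rw [if_neg (by simp), if_neg (by simp), if_pos rfl]

theorem K_down (w : Pt) : K w (w.1, w.2 - 1) = - sg w.2 := by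
  unfold K
  rw [if_neg (by simp), if_neg (by simp), if_neg (by simp; omega), if_pos rfl]

theorem row_sum (w : Pt) (f : Pt → ℝ) :
    ∑ b ∈ nbrs w, K w b * f b = f (w.1 + 1, w.2) - f (w.1 - 1, w.2) +
      sg w.2 * (f (w.1, w.2 + 1) - f (w.1, w.2 - 1)) := by
  rw [sum_nbrs, K_right, K_left, K_up, K_down]
  ring

theorem col_sum (b : Pt) (f : Pt → ℝ) :
    ∑ w ∈ nbrs b, f w * K w b = f (b.1 - 1, b.2) - f (b.1 + 1, b.2) +
      sg b.2 * (f (b.1, b.2 + 1) - f (b.1, b.2 - 1)) := by
  rw [sum_nbrs]
  have h1 : K (b.1 + 1, b.2) b = -1 := by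
    have := K_left (b.1 + 1, b.2)
    simpa using this
  have h2 : K (b.1 - 1, b.2) b = 1 := by
    have := K_right (b.1 - 1, b.2)
    simpa using this
  have h3 : K (b.1, b.2 + 1) b = sg b.2 := by
    have := K_down (b.1, b.2 + 1)
    simp only [sg_add_one, add_sub_cancel_right, neg_neg] at this
    simpa using this
  have h4 : K (b.1, b.2 - 1) b = - sg b.2 := by
    have := K_up (b.1, b.2 - 1)
    simp only [sg_sub_one, sub_add_cancel] at this
    simpa using this
  rw [h1, h2, h3, h4]
  ring

theorem isPlane_Apl : IsPlane Apl where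
  left := by
    intro w w' hw hw'
    rw [row_sum]
    obtain ⟨x, y⟩ := w
    obtain ⟨x', y'⟩ := w'
    unfold White at hw hw'
    simp only [Kp] at *
    have hpar : Even ((x' - x) + (y' - y)) := by
      rw [Int.odd_iff] at hw hw'
      rw [Int.even_iff]
      omega
    have ey : y' = y + (y' - y) := by ring
    rcases Int.even_or_odd (x' - x) with hx | hx
    · have hy : Even (y' - y) := (Int.even_add.1 hpar).1 hx
      have o1 : Odd (x' + 1 - x) := by
        rw [Int.even_iff] at hx
        rw [Int.odd_iff]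
        omega
      have o2 : Odd (x' - 1 - x) := by
        rw [Int.even_iff] at hx
        rw [Int.odd_iff]
        omega
      have o3 : ¬ Odd (x' - x) := Int.not_odd_iff_even.2 hx
      simp only [o1, o2, o3, if_true, if_false, Prod.mk_sub_mk]
      have hsg : sg y' * sg y = 1 := by
        rw [ey, sg_add, mul_comm (sg y), mul_assoc, sg_sq, mul_one]
        simp [sg, hy]
      have h := Apl_rel_even hx hy
      have e1 : x' + 1 - x = x' - x + 1 := by ring
      have e2 : x' - 1 - x = x' - x - 1 := by ring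
      have e3 : y' + 1 - y = y' - y + 1 := by ring
      have e4 : y' - 1 - y = y' - y - 1 := by ring
      rw [e1, e2, e3, e4]
      have e5 : (if (x', y') = (x, y) then (1 : ℝ) else 0) =
          if x' - x = 0 ∧ y' - y = 0 then 1 else 0 := by
        congr 1
        simp [Prod.ext_iff, sub_eq_zero]
      rw [e5, ← h]
      linear_combination (Apl (x' - x, y' - y + 1) - Apl (x' - x, y' - y - 1)) * hsg
    · have hy : Odd (y' - y) := by
        by_contra h
        exact (Int.not_even_iff_odd.2 hx) ((Int.even_add.1 hpar).2 (Int.not_odd_iff_even.1 h))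
      have o1 : ¬ Odd (x' + 1 - x) := by
        rw [Int.odd_iff] at hx ⊢
        omega
      have o2 : ¬ Odd (x' - 1 - x) := by
        rw [Int.odd_iff] at hx ⊢
        omega
      simp only [o1, o2, hx, if_true, if_false, Prod.mk_sub_mk]
      have hsg : sg y' = - sg y := by
        rw [ey, sg_add]
        have : sg (y' - y) = -1 := by simp [sg, Int.not_even_iff_odd.2 hy]
        rw [this]; ring
      have h := Apl_rel_odd hx hy
      have e1 : x' + 1 - x = x' - x + 1 := by ring
      have e2 : x' - 1 - x = x' - x - 1 := by ring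
      have e3 : y' + 1 - y = y' - y + 1 := by ring
      have e4 : y' - 1 - y = y' - y - 1 := by ring
      rw [e1, e2, e3, e4, hsg, if_neg]
      · linear_combination (sg y) * h
      · simp only [Prod.mk.injEq, not_and]
        rintro rfl
        simp at hx
  right := by
    intro b b' hb hb'
    rw [col_sum]
    obtain ⟨x, y⟩ := b
    obtain ⟨x', y'⟩ := b'
    unfold Black at hb hb'
    simp only [Kp] at *
    have hpar : Even ((x - x') + (y - y')) := by
      rw [Int.even_iff] at hb hb' ⊢
      omega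
    rcases Int.even_or_odd (x - x') with hx | hx
    · have hy : Even (y - y') := (Int.even_add.1 hpar).1 hx
      have o1 : Odd (x - (x' + 1)) := by
        rw [Int.even_iff] at hx
        rw [Int.odd_iff]
        omega
      have o2 : Odd (x - (x' - 1)) := by
        rw [Int.even_iff] at hx
        rw [Int.odd_iff]
        omega
      have o3 : ¬ Odd (x - x') := Int.not_odd_iff_even.2 hx
      simp only [o1, o2, o3, if_true, if_false, Prod.mk_sub_mk, sg_add_one, sg_sub_one]
      have hsg := sg_sq y'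
      have h := Apl_rel_even hx hy
      have e1 : x - (x' + 1) = x - x' - 1 := by ring
      have e2 : x - (x' - 1) = x - x' + 1 := by ring
      have e3 : y - (y' + 1) = y - y' - 1 := by ring
      have e4 : y - (y' - 1) = y - y' + 1 := by ring
      rw [e1, e2, e3, e4]
      have e5 : (if (x', y') = (x, y) then (1 : ℝ) else 0) =
          if x - x' = 0 ∧ y - y' = 0 then 1 else 0 := by
        congr 1
        simp only [Prod.mk.injEq, sub_eq_zero, eq_iff_iff]
        constructor <;> rintro ⟨rfl, rfl⟩ <;> simp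
      rw [e5, ← h]
      linear_combination (Apl (x - x', y - y' + 1) - Apl (x - x', y - y' - 1)) * hsg
    · have hy : Odd (y - y') := by
        by_contra h
        exact (Int.not_even_iff_odd.2 hx) ((Int.even_add.1 hpar).2 (Int.not_odd_iff_even.1 h))
      have o1 : ¬ Odd (x - (x' + 1)) := by
        rw [Int.odd_iff] at hx ⊢
        omega
      have o2 : ¬ Odd (x - (x' - 1)) := by
        rw [Int.odd_iff] at hx ⊢
        omega
      simp only [o1, o2, hx, if_true, if_false, Prod.mk_sub_mk]
      have h := Apl_rel_odd hx hy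
      have e1 : x - (x' + 1) = x - x' - 1 := by ring
      have e2 : x - (x' - 1) = x - x' + 1 := by ring
      have e3 : y - (y' + 1) = y - y' - 1 := by ring
      have e4 : y - (y' - 1) = y - y' + 1 := by ring
      rw [e1, e2, e3, e4, if_neg]
      · linear_combination (sg y') * h
      · simp only [Prod.mk.injEq, not_and]
        rintro rfl
        simp at hx
  asymp := ⟨8, Apl_asymp⟩

end Vale.Agent.P155.B1b
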