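import Vale.Agent.P155.B1b.PlaneEq

/-!
# P155, block B1: summary for the plane profile
-/

namespace Vale.Agent.P155.B1b

/-- `Skel.B_plane`. -/
theorem B_plane : ∃ A, IsPlane A := ⟨Apl, isPlane_Apl⟩

theorem abs_Alead_le (z : Pt) : |Alead z| ≤ 1 / Real.sqrt (nsq z) := by
  have hpi : (1 : ℝ) ≤ Real.pi := by linarith [Real.pi_gt_three]
  have hn : 0 ≤ nsq z := by unfold nsq; positivity
  unfold Alead
  rcases hn.eq_or_lt with h | h
  · rw [← h]; simp
  have hs : 0 < Real.sqrt (nsq z) := Real.sqrt_pos.2 h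
  have hc : |(if Odd z.1 then (z.1 : ℝ) else (z.2 : ℝ))| ≤ Real.sqrt (nsq z) := by
    apply Real.abs_le_sqrt
    unfold nsq
    split_ifs
    · nlinarith [sq_nonneg (z.2 : ℝ)]
    · nlinarith [sq_nonneg (z.1 : ℝ)]
  rw [abs_div, abs_of_pos (by positivity : 0 < Real.pi * nsq z), div_le_div_iff₀ (by positivity) hs]
  calc |(if Odd z.1 then (z.1 : ℝ) else (z.2 : ℝ))| * Real.sqrt (nsq z)
      ≤ Real.sqrt (nsq z) * Real.sqrt (nsq z) := mul_le_mul_of_nonneg_right hc hs.le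
    _ = nsq z := Real.mul_self_sqrt hn
    _ ≤ 1 * (Real.pi * nsq z) := by nlinarith

/-- every plane profile is `O(1/|z|)` -/
theorem IsPlane.bound {A : Pt → ℝ} (hA : IsPlane A) :
    ∃ C, 0 ≤ C ∧ ∀ z : Pt, Odd (z.1 + z.2) → |A z| ≤ C / Real.sqrt (nsq z) := by
  obtain ⟨C, hC⟩ := hA.asymp
  refine ⟨|C| + 1, by positivity, fun z hz => ?_⟩
  have hn := nsq_pos hz
  have hs : 0 < Real.sqrt (nsq z) := Real.sqrt_pos.2 hn
  have h1 : 1 ≤ Real.sqrt (nsq z) := by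
    rw [Real.one_le_sqrt]
    have h2 : (0 : ℝ) < (z.1 : ℝ) ^ 2 + (z.2 : ℝ) ^ 2 := hn
    have h3 : (0 : ℤ) < z.1 ^ 2 + z.2 ^ 2 := by exact_mod_cast h2
    have h4 : (1 : ℤ) ≤ z.1 ^ 2 + z.2 ^ 2 := h3
    have h5 : (1 : ℝ) ≤ (z.1 : ℝ) ^ 2 + (z.2 : ℝ) ^ 2 := by exact_mod_cast h4
    exact h5
  have e : A z = (A z - Alead z) + Alead z := by ring
  have hq : nsq z = Real.sqrt (nsq z) * Real.sqrt (nsq z) := (Real.mul_self_sqrt hn.le).symm
  calc |A z| ≤ |A z - Alead z| + |Alead z| := by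
        conv_lhs => rw [e]
        exact abs_add_le _ _
    _ ≤ |C| / nsq z + 1 / Real.sqrt (nsq z) := by
        apply add_le_add _ (abs_Alead_le z)
        exact (hC z hz).trans (div_le_div_of_nonneg_right (le_abs_self C) hn.le)
    _ ≤ |C| / Real.sqrt (nsq z) + 1 / Real.sqrt (nsq z) := by
        apply add_le_add _ le_rfl
        apply div_le_div_of_nonneg_left (abs_nonneg C) hs
        nlinarith
    _ = (|C| + 1) / Real.sqrt (nsq z) := by ring

end Vale.Agent.P155.B1b
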